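import Vale.Agent.P097.H60.Lfc
import Vale.Agent.P097.H917.BQ
import Vale.Agent.P097.H831.EFc
import Vale.Agent.P097.H831.Ode

/-! # P097 / H60 : [LFC], unconditional -/

namespace Vale.Agent.P097.H60

open Vale.Agent.P097 Vale.Agent.P097.LR

/-- **[LFC]** -/
theorem lFC : LFC := lfc H831.efac (H917.bq H831.efac H831.ode)

end Vale.Agent.P097.H60
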