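import Vale.Agent.P097.H60.Div

/-! # P097 / H60 : the family `F t w = Et (β w) t` -/

set_option linter.all false

open scoped Topology
open Filter Set Metric

namespace Vale.Agent.P097.H60

open Vale.Agent.P097 Vale.Agent.P097.LR

section
variable {a c b₀ r : ℝ} {β J : ℂ → ℂ} (hE : EFac) (hP : PAR a c b₀ r β J)

include hP in
theorem β_re {w : ℂ} (hw : ‖w‖ < r) : 7 * b₀ / 8 < (β w).re ∧ (β w).re < 9 * b₀ / 8 := by
  have h1 := (hP.near w hw).1
  have h2 := Complex.abs_re_le_norm (β w - b₀)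
  rw [Complex.sub_re, Complex.ofReal_re] at h2
  have h3 := abs_lt.1 (lt_of_le_of_lt h2 h1)
  constructor <;> linarith [h3.1, h3.2]

include hP in
theorem r_lt : r < b₀ / 8 := (hP.near 0 (by rw [norm_zero]; exact hP.hr)).2

include hP in
theorem J0 : J 0 = 0 := by
  have h := hP.Jodd 0 (by rw [norm_zero]; exact hP.hr)
  rw [neg_zero] at h
  have : (2:ℂ) * J 0 = 0 := by linear_combination h
  simpa using this

theorem half_im_le {w : ℂ} {r : ℝ} (hw : ‖w‖ < r) : |(w / 2).im| < r / 2 := by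
  have h1 := Complex.abs_im_le_norm w
  have h2 : (w / 2).im = w.im / 2 := by simp
  rw [h2, abs_div, abs_two]
  linarith

/-- domain of `F` -/
def DF (b₀ r : ℝ) : Set (ℂ × ℂ) := {p | (-(7 * b₀ / 8) < p.1.im ∧ p.1.im < 21 * b₀ / 8) ∧ ‖p.2‖ < r}

theorem isOpen_DF (b₀ r : ℝ) : IsOpen (DF b₀ r) := by
  unfold DF
  refine IsOpen.inter (IsOpen.inter ?_ ?_) ?_
  · exact isOpen_lt continuous_const (Complex.continuous_im.comp continuous_fst)
  · exact isOpen_lt (Complex.continuous_im.comp continuous_fst) continuous_const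
  · exact isOpen_lt continuous_snd.norm continuous_const

include hE hP in
theorem F_jd : DifferentiableOn ℂ (fun p : ℂ × ℂ => Et (β p.2) p.1) (DF b₀ r) := by
  have h1 : DifferentiableOn ℂ (fun p : ℂ × ℂ => β p.2) (DF b₀ r) := by
    have : DifferentiableOn ℂ (β ∘ Prod.snd) (DF b₀ r) :=
      hP.dβ.comp (by fun_prop) (fun p hp => by rw [mem_ball_zero_iff]; exact hp.2)
    exact this
  have h2 : DifferentiableOn ℂ ((fun p : ℂ × ℂ => Et p.2 p.1) ∘ (fun p : ℂ × ℂ => (p.1, β p.2))) (DF b₀ r) := by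
    refine DifferentiableOn.comp hE.1 (differentiableOn_fst.prodMk h1) ?_
    intro p hp
    have h3 := β_re hP hp.2
    have hb := hP.hb₀
    simp only [mem_setOf_eq]
    refine ⟨by linarith [h3.1], by linarith [h3.1, hp.1.1], by linarith [h3.1, hp.1.2]⟩
  exact h2

include hE in
theorem E_add_one {b : ℂ} (hb : 0 < b.re) (t : ℂ) : Et b (t + 1) = Et b t := by
  have h1 := (hE.2 b hb).1
  have h2 := h1 (t + 1 / 2)
  rw [h1 t, neg_neg] at h2
  rw [← h2]
  congr 1
  ring

include hE in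
theorem E_add_int {b : ℂ} (hb : 0 < b.re) (t : ℂ) (k : ℤ) : Et b (t + k) = Et b t := by
  induction k with
  | zero => simp
  | succ k ih =>
    rw [← ih, ← E_add_one hE hb (t + (k:ℤ))]
    congr 1
    push_cast
    ring
  | pred k ih =>
    rw [← ih, ← E_add_one hE hb (t + ((-(k:ℤ) - 1 : ℤ) : ℂ))]
    congr 1
    push_cast
    ring

include hE in
theorem E_real {b : ℝ} (hb : 0 < b) {t : ℂ} (ht : t.im = 0) : ‖Et b t‖ = 1 := by
  have h1 := (hE.2 (b:ℂ) (by simpa using hb)).2.2.2.1 t (by rw [ht]; simpa using hb) (by rw [ht]; simpa using hb)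
  rw [Complex.conj_ofReal, Complex.conj_eq_iff_im.2 ht, mul_comm, Complex.mul_conj] at h1
  have h2 : Complex.normSq (Et b t) = 1 := by exact_mod_cast h1
  rw [Complex.normSq_eq_norm_sq] at h2
  nlinarith [norm_nonneg (Et (b:ℂ) t)]

include hE in
/-- `|E| ≤ 1` between the two unimodular lines -/
theorem E_le_one {b : ℝ} (hb : 0 < b) {t : ℂ} (ht : 0 ≤ t.im) (ht' : t.im ≤ 2 * b) : ‖Et b t‖ ≤ 1 := by
  have hbre : 0 < (b:ℂ).re := by simpa using hb
  have hfac := hE.2 (b:ℂ) hbre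
  -- holomorphy
  have hd : DifferentiableOn ℂ (Et b) {t : ℂ | -b < t.im ∧ t.im < 3 * b} := by
    have : DifferentiableOn ℂ ((fun p : ℂ × ℂ => Et p.2 p.1) ∘ (fun t : ℂ => (t, (b:ℂ)))) {t : ℂ | -b < t.im ∧ t.im < 3 * b} := by
      refine DifferentiableOn.comp hE.1 (by fun_prop) ?_
      intro t ht
      exact ⟨hbre, by simpa using ht.1, by simpa using ht.2⟩
    exact this
  -- top line
  have htop : ∀ t : ℂ, t.im = 2 * b → ‖Et b t‖ ≤ 1 := by
    intro t ht
    have h1 := hfac.2.2.1 (t - 2 * Complex.I * b) (by simp [ht]; linarith) (by simp [ht]; linarith)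
    rw [sub_add_cancel] at h1
    have h2 := E_real hE hb (t := t - 2 * Complex.I * b) (by simp [ht])
    have h3 : ‖Et b t‖ * ‖Et b (t - 2 * Complex.I * b)‖ = 1 := by
      rw [← norm_mul, h1, norm_neg, norm_one]
    rw [h2, mul_one] at h3
    exact h3.le
  -- bound
  have hbd : ∃ M : ℝ, ∀ t : ℂ, 0 ≤ t.im → t.im ≤ 2 * b → ‖Et b t‖ ≤ M := by
    have hK : IsCompact (Icc (0:ℝ) 1 ×ℂ Icc (0:ℝ) (2 * b)) := isCompact_Icc.reProdIm isCompact_Icc
    obtain ⟨M, hM⟩ := hK.exists_bound_of_continuousOn (f := Et b) (hd.continuousOn.mono (by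
      intro z hz
      rw [Complex.mem_reProdIm] at hz
      exact ⟨by linarith [hz.2.1], by linarith [hz.2.2]⟩))
    refine ⟨M, fun t h0 h1 => ?_⟩
    have h2 := E_add_int hE hbre t (-⌊t.re⌋)
    rw [← h2]
    apply hM
    rw [Complex.mem_reProdIm]
    simp only [Complex.add_re, Complex.add_im, Complex.intCast_re, Complex.intCast_im, add_zero, mem_Icc]
    refine ⟨⟨?_, ?_⟩, h0, h1⟩
    · push_cast
      linarith [Int.floor_le t.re]
    · push_cast
      linarith [(Int.lt_floor_add_one t.re)]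
  obtain ⟨M, hM⟩ := hbd
  refine PhragmenLindelof.horizontal_strip (a := 0) (b := 2 * b) ?_ ?_ (fun z hz => (E_real hE hb hz).le) htop ht ht'
  · have hcl : closure (Complex.im ⁻¹' Ioo 0 (2 * b)) ⊆ {t : ℂ | -b < t.im ∧ t.im < 3 * b} := by
      have : closure (Complex.im ⁻¹' Ioo 0 (2 * b)) ⊆ Complex.im ⁻¹' Icc 0 (2 * b) :=
        closure_minimal (preimage_mono Ioo_subset_Icc_self) (isClosed_Icc.preimage Complex.continuous_im)
      intro z hz
      have := this hz
      exact ⟨by linarith [this.1], by linarith [this.2]⟩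
    exact (hd.mono hcl).diffContOnCl
  · refine ⟨0, by rw [sub_zero]; positivity, 0, ?_⟩
    refine Asymptotics.IsBigO.of_bound M ?_
    rw [eventually_inf_principal]
    refine Eventually.of_forall fun z hz => ?_
    simp only [zero_mul, Real.exp_zero, norm_one, mul_one]
    exact hM z hz.1.le hz.2.le

include hE hP in
/-- a strip on which `|E|² (a - c) < a + c` -/
theorem bd (hc : 0 < c) (hca : c < a) : ∃ κ₁ r₁ : ℝ, 0 < κ₁ ∧ 0 < r₁ ∧ κ₁ ≤ b₀ / 4 ∧ r₁ ≤ r ∧
    ∀ t w : ℂ, ‖w‖ < r₁ → -κ₁ < t.im → t.im < b₀ + κ₁ → (a - c) * ‖Et (β w) t‖ ^ 2 < a + c := by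
  have hb := hP.hb₀
  set K : Set ℂ := Icc (0:ℝ) 1 ×ℂ Icc (0:ℝ) b₀ with hKdef
  have hK : IsCompact K := isCompact_Icc.reProdIm isCompact_Icc
  have hcont : ContinuousOn (fun p : ℂ × ℂ => (a - c) * ‖Et (β p.2) p.1‖ ^ 2) (DF b₀ r) :=
    ((F_jd hE hP).continuousOn.norm.pow 2).const_mul _
  have hO : IsOpen (DF b₀ r ∩ (fun p : ℂ × ℂ => (a - c) * ‖Et (β p.2) p.1‖ ^ 2) ⁻¹' Iio (a + c)) :=
    hcont.isOpen_inter_preimage (isOpen_DF _ _) isOpen_Iio
  have hsub : K ×ˢ {(0:ℂ)} ⊆ DF b₀ r ∩ (fun p : ℂ × ℂ => (a - c) * ‖Et (β p.2) p.1‖ ^ 2) ⁻¹' Iio (a + c) := by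
    rintro ⟨t, w⟩ ⟨ht, hw⟩
    rw [mem_singleton_iff] at hw
    simp only at ht hw
    subst hw
    rw [hKdef, Complex.mem_reProdIm] at ht
    refine ⟨⟨⟨by simp only; linarith [ht.2.1], by simp only; linarith [ht.2.2]⟩, by simp only [norm_zero]; exact hP.hr⟩, ?_⟩
    simp only [mem_preimage, mem_Iio]
    rw [hP.β0]
    have h1 := E_le_one hE hb (t := t) ht.2.1 (by linarith [ht.2.2])
    have h2 : ‖Et (b₀:ℂ) t‖ ^ 2 ≤ 1 := pow_le_one₀ (norm_nonneg _) h1
    nlinarith
  obtain ⟨u, v, hu, hv, hKu, h0v, huv⟩ := generalized_tube_lemma hK isCompact_singleton hO hsub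
  obtain ⟨δ, hδ, hδu⟩ := hK.exists_thickening_subset_open hu hKu
  obtain ⟨δ', hδ', hδv⟩ := Metric.isOpen_iff.1 hv 0 (h0v rfl)
  refine ⟨min δ (b₀ / 4), min δ' r, by positivity, lt_min hδ' hP.hr, min_le_right _ _, min_le_right _ _, ?_⟩
  intro t w hw ht ht'
  have hw1 : ‖w‖ < δ' := lt_of_lt_of_le hw (min_le_left _ _)
  have hw2 : ‖w‖ < r := lt_of_lt_of_le hw (min_le_right _ _)
  have hd1 : min δ (b₀ / 4) ≤ δ := min_le_left _ _
  have hbre : 0 < (β w).re := by linarith [(β_re hP hw2).1]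
  rw [← E_add_int hE hbre t (-⌊t.re⌋)]
  set t' : ℂ := t + ((-⌊t.re⌋ : ℤ) : ℂ) with ht'def
  have hre : t'.re = t.re - ⌊t.re⌋ := by
    rw [ht'def, Complex.add_re, Complex.intCast_re]
    push_cast
    ring
  have him : t'.im = t.im := by
    rw [ht'def]; simp
  have hmem : t' ∈ u := by
    apply hδu
    rw [Metric.mem_thickening_iff]
    refine ⟨⟨t'.re, max 0 (min b₀ t.im)⟩, ?_, ?_⟩
    · rw [hKdef, Complex.mem_reProdIm]
      refine ⟨⟨?_, ?_⟩, le_max_left _ _, max_le hb.le (min_le_left _ _)⟩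
      · simp only; rw [hre]; linarith [Int.floor_le t.re]
      · simp only; rw [hre]; linarith [(Int.lt_floor_add_one t.re)]
    · rw [dist_eq_norm]
      have e1 : t' - ⟨t'.re, max 0 (min b₀ t.im)⟩ = ((t.im - max 0 (min b₀ t.im) : ℝ) : ℂ) * Complex.I := by
        apply Complex.ext
        · simp
        · simp [him]
      rw [e1, norm_mul, Complex.norm_I, mul_one, Complex.norm_real, Real.norm_eq_abs, abs_lt]
      rcases le_total t.im 0 with h | h
      · rw [min_eq_right (by linarith), max_eq_left h]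
        constructor <;> linarith
      · rcases le_total b₀ t.im with h' | h'
        · rw [min_eq_left h', max_eq_right hb.le]
          constructor <;> linarith
        · rw [min_eq_right h', max_eq_right h]
          constructor <;> linarith
  have := huv (show (t', w) ∈ u ×ˢ v from ⟨hmem, hδv (by rw [mem_ball_zero_iff]; exact hw1)⟩)
  exact this.2

end

end Vale.Agent.P097.H60
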