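import Vale.Agent.P097.LR.EDefs
import Vale.Agent.P268.Hol

/-! # P097 / H60 : division of jointly holomorphic functions -/

set_option linter.all false

open scoped Topology
open Filter Set Metric

namespace Vale.Agent.P097.H60

open Vale.Agent.P097 Vale.Agent.P097.LR

/-- division by the first variable -/
theorem div_jd {f : ℂ → ℂ → ℂ} {R : ℝ} {V : Set ℂ} (hV : IsOpen V)
    (hf : DifferentiableOn ℂ (fun p : ℂ × ℂ => f p.1 p.2) (ball 0 R ×ˢ V)) (h0 : ∀ w ∈ V, f 0 w = 0) :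
    DifferentiableOn ℂ (fun p : ℂ × ℂ => dslope (fun x => f x p.2) 0 p.1) (ball 0 R ×ˢ V) := by
  rintro ⟨x₀, w₀⟩ ⟨hx₀, hw₀⟩
  apply DifferentiableAt.differentiableWithinAt
  simp only at hx₀ hw₀
  rw [mem_ball_zero_iff] at hx₀
  have hx0 : 0 ≤ ‖x₀‖ := norm_nonneg _
  set R₁ : ℝ := (2 * ‖x₀‖ + R) / 3 with hR₁
  set R₂ : ℝ := (‖x₀‖ + 2 * R) / 3 with hR₂
  have h1 : ‖x₀‖ < R₁ := by rw [hR₁]; linarith
  have h2 : R₁ < R₂ := by rw [hR₁, hR₂]; linarith
  have h3 : R₂ < R := by rw [hR₂]; linarith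
  have h10 : 0 < R₁ := by linarith
  set U : Set (ℂ × ℂ) := ball (0:ℂ) R₁ ×ˢ V with hU
  have oU : IsOpen U := isOpen_ball.prod hV
  set W : Set ℂ := {ζ | R₁ < ‖ζ‖ ∧ ‖ζ‖ < R} with hW
  have oW : IsOpen W := (isOpen_lt continuous_const continuous_norm).inter (isOpen_lt continuous_norm continuous_const)
  have hsW : sphere (0:ℂ) R₂ ⊆ W := by
    intro ζ hζ
    rw [mem_sphere_zero_iff_norm] at hζ
    exact ⟨by rw [hζ]; exact h2, by rw [hζ]; exact h3⟩
  set G : (ℂ × ℂ) × ℂ → ℂ := fun q => (q.2 - q.1.1)⁻¹ * (f q.2 q.1.2 * q.2⁻¹) with hG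
  have dG : DifferentiableOn ℂ G (U ×ˢ W) := by
    have d1 : DifferentiableOn ℂ (fun q : (ℂ × ℂ) × ℂ => f q.2 q.1.2) (U ×ˢ W) := by
      have : DifferentiableOn ℂ ((fun p : ℂ × ℂ => f p.1 p.2) ∘ (fun q : (ℂ × ℂ) × ℂ => (q.2, q.1.2))) (U ×ˢ W) := by
        refine hf.comp (by fun_prop) ?_
        rintro ⟨⟨x, w⟩, ζ⟩ ⟨⟨_, hw⟩, hζ⟩
        exact ⟨by rw [mem_ball_zero_iff]; exact hζ.2, hw⟩
      exact this
    have d2 : DifferentiableOn ℂ (fun q : (ℂ × ℂ) × ℂ => (q.2 - q.1.1)⁻¹) (U ×ˢ W) := by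
      refine DifferentiableOn.inv (by fun_prop) ?_
      rintro ⟨⟨x, w⟩, ζ⟩ ⟨⟨hx, _⟩, hζ⟩ h
      simp only at hx h
      rw [mem_ball_zero_iff] at hx
      rw [sub_eq_zero] at h
      have := hζ.1
      simp only at this
      rw [h] at this
      linarith
    have d3 : DifferentiableOn ℂ (fun q : (ℂ × ℂ) × ℂ => (q.2)⁻¹) (U ×ˢ W) := by
      refine DifferentiableOn.inv (by fun_prop) ?_
      rintro ⟨⟨x, w⟩, ζ⟩ ⟨_, hζ⟩ h
      simp only at h
      have := hζ.1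
      simp only at this
      rw [h, norm_zero] at this
      linarith
    exact d2.mul (d1.mul d3)
  have key := Vale.Agent.P268.differentiableOn_circleIntegral (by linarith) oU oW hsW dG
  have hEq : ∀ p ∈ U, dslope (fun x => f x p.2) 0 p.1 =
      (2 * Real.pi * Complex.I)⁻¹ * ∮ t in C(0, R₂), G (p, t) := by
    rintro ⟨x, w⟩ ⟨hx, hw⟩
    simp only at hx hw ⊢
    rw [mem_ball_zero_iff] at hx
    have d1 : DifferentiableOn ℂ (fun x => f x w) (ball 0 R) := by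
      have : DifferentiableOn ℂ ((fun p : ℂ × ℂ => f p.1 p.2) ∘ (fun x : ℂ => (x, w))) (ball 0 R) :=
        hf.comp (by fun_prop) (fun x hx => ⟨hx, hw⟩)
      exact this
    have hR0 : 0 < R := by linarith
    have d2 : DifferentiableOn ℂ (dslope (fun x => f x w) 0) (ball 0 R) :=
      (Complex.differentiableOn_dslope (ball_mem_nhds _ hR0)).2 d1
    have d3 : DiffContOnCl ℂ (dslope (fun x => f x w) 0) (ball 0 R₂) :=
      (d2.mono (closedBall_subset_ball h3)).diffContOnCl_ball (le_refl _)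
    have d4 := d3.circleIntegral_sub_inv_smul (w := x) (by rw [mem_ball_zero_iff]; linarith)
    have d5 : ∮ t in C(0, R₂), G ((x, w), t) = ∮ t in C(0, R₂), (t - x)⁻¹ • dslope (fun x => f x w) 0 t := by
      refine circleIntegral.integral_congr (by linarith) ?_
      intro t ht
      rw [mem_sphere_zero_iff_norm] at ht
      have ht0 : t ≠ 0 := by
        intro h
        rw [h, norm_zero] at ht
        linarith
      simp only [hG, smul_eq_mul]
      rw [dslope_of_ne _ ht0, slope_def_field, h0 w hw, sub_zero, sub_zero, div_eq_mul_inv]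
    rw [d5, d4, smul_eq_mul, ← mul_assoc, inv_mul_cancel₀ Complex.two_pi_I_ne_zero, one_mul]
  have hx₀U : (x₀, w₀) ∈ U := ⟨by rw [mem_ball_zero_iff]; exact h1, hw₀⟩
  have hd : DifferentiableAt ℂ (fun p : ℂ × ℂ => (2 * Real.pi * Complex.I)⁻¹ * ∮ t in C(0, R₂), G (p, t)) (x₀, w₀) :=
    (key.differentiableAt (oU.mem_nhds hx₀U)).const_mul _
  refine hd.congr_of_eventuallyEq ?_
  filter_upwards [oU.mem_nhds hx₀U] with p hp using hEq p hp

theorem mul_dslope_zero {f : ℂ → ℂ} (h0 : f 0 = 0) (x : ℂ) : f x = x * dslope f 0 x := by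
  by_cases hx : x = 0
  · rw [hx, h0, zero_mul]
  · rw [dslope_of_ne _ hx, slope_def_field, h0, sub_zero, sub_zero]
    field_simp

end Vale.Agent.P097.H60
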