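import Vale.Agent.P097.H60.Loc

/-! # P097 / H60 : the good region and limits at `w = 0` -/

set_option linter.all false

open scoped Topology
open Filter Set Metric

namespace Vale.Agent.P097.H60

open Vale.Agent.P097 Vale.Agent.P097.LR

/-- good region -/
structure Good (a c b₀ r : ℝ) (β J : ℂ → ℂ) (κ₂ ρ : ℝ) : Prop where
  κ0 : 0 < κ₂
  κ1 : κ₂ ≤ b₀ / 8
  ρ0 : 0 < ρ
  ρ1 : ρ ≤ r
  D : ∀ t w : ℂ, ‖w‖ < ρ → -κ₂ < t.im → t.im < b₀ + κ₂ → DD a c β t w ≠ 0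
  Z : ∀ t w : ℂ, ‖w‖ < ρ → -κ₂ < t.im → t.im < b₀ + κ₂ →
    ZE a c β J t w ^ 2 * DD a c β t w = (a - c) + (a + c) * yy β t w

def RS (b₀ κ₂ ρ : ℝ) : Set (ℂ × ℂ) := {p | (-κ₂ < p.1.im ∧ p.1.im < b₀ + κ₂) ∧ ‖p.2‖ < ρ}

theorem isOpen_RS (b₀ κ₂ ρ : ℝ) : IsOpen (RS b₀ κ₂ ρ) := by
  unfold RS
  refine IsOpen.inter (IsOpen.inter ?_ ?_) ?_
  · exact isOpen_lt continuous_const (Complex.continuous_im.comp continuous_fst)
  · exact isOpen_lt (Complex.continuous_im.comp continuous_fst) continuous_const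
  · exact isOpen_lt continuous_snd.norm continuous_const

section
variable {a c b₀ r : ℝ} {β J : ℂ → ℂ} (hE : EFac) (hP : PAR a c b₀ r β J)

include hE hP in
theorem exists_good (hc : 0 < c) (hca : c < a) {r' : ℝ} (hr' : 0 < r') (hr'r : r' ≤ r) (hB : BQc a c b₀ β J r') :
    ∃ κ₂ ρ, Good a c b₀ r β J κ₂ ρ := by
  obtain ⟨κ₁, r₁, hκ₁, hr₁, hκ₁b, hr₁r, hbd⟩ := bd hE hP hc hca
  have hb := hP.hb₀
  have hD : ∀ t w : ℂ, ‖w‖ < min (min r₁ r') κ₁ → -(κ₁ / 2) < t.im → t.im < b₀ + κ₁ / 2 → DD a c β t w ≠ 0 := by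
    intro t w hw ht ht' h0
    have hw1 : ‖w‖ < r₁ := lt_of_lt_of_le hw ((min_le_left _ _).trans (min_le_left _ _))
    have hw2 : ‖w‖ < κ₁ := lt_of_lt_of_le hw (min_le_right _ _)
    have h1 := abs_lt.1 (half_im_le hw2)
    have h2 := hbd (t + w / 2) w hw1 (by rw [Complex.add_im]; linarith) (by rw [Complex.add_im]; linarith)
    have h3 := hbd (t - w / 2) w hw1 (by rw [Complex.sub_im]; linarith) (by rw [Complex.sub_im]; linarith)
    unfold DD yy at h0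
    set u := Et (β w) (t + w / 2) with hu
    set v := Et (β w) (t - w / 2) with hv
    have h4 : ((a:ℂ) - c) * (u * v) = -(a + c) := by linear_combination h0
    have h5 : (a - c) * (‖u‖ * ‖v‖) = a + c := by
      have := congrArg norm h4
      rw [norm_mul, norm_mul, norm_neg] at this
      have e1 : ‖(a:ℂ) - c‖ = a - c := by
        rw [← Complex.ofReal_sub, Complex.norm_real, Real.norm_eq_abs, abs_of_pos (by linarith)]
      have e2 : ‖(a:ℂ) + c‖ = a + c := by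
        rw [← Complex.ofReal_add, Complex.norm_real, Real.norm_eq_abs, abs_of_pos (by linarith)]
      rwa [e1, e2] at this
    nlinarith [sq_nonneg (‖u‖ - ‖v‖)]
  refine ⟨κ₁ / 2, min (min r₁ r') κ₁, by positivity, by linarith, by positivity,
    (min_le_left _ _).trans ((min_le_left _ _).trans hr₁r), hD, ?_⟩
  intro t w hw ht ht'
  have hw1 : ‖w‖ < r' := lt_of_lt_of_le hw ((min_le_left _ _).trans (min_le_right _ _))
  exact Z2 hE hP hr' hr'r hB hw1 (by linarith) (by linarith) (hD t w hw ht ht')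

variable {κ₂ ρ : ℝ} (hG : Good a c b₀ r β J κ₂ ρ)

include hP hG in
theorem RS_sub {p : ℂ × ℂ} (hp : p ∈ RS b₀ κ₂ ρ) : p ∈ VT b₀ ×ˢ ball (0:ℂ) r := by
  have hb := hP.hb₀
  have h1 := hG.κ1
  have h0 := hG.κ0
  refine ⟨⟨?_, ?_⟩, ?_⟩
  · linarith [hp.1.1]
  · linarith [hp.1.2]
  · rw [mem_ball_zero_iff]; exact lt_of_lt_of_le hp.2 hG.ρ1

include hE hP hG in
theorem ZE_jd : DifferentiableOn ℂ (fun p : ℂ × ℂ => ZE a c β J p.1 p.2) (RS b₀ κ₂ ρ) := by
  have hsub : RS b₀ κ₂ ρ ⊆ VT b₀ ×ˢ ball (0:ℂ) r := fun p hp => RS_sub hP hG hp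
  have h1 : DifferentiableOn ℂ (fun p : ℂ × ℂ => N1 β p.1 p.2 * (Complex.I * J1 J p.2 * DD a c β p.1 p.2)⁻¹) (RS b₀ κ₂ ρ) := by
    have hden : DifferentiableOn ℂ (fun p : ℂ × ℂ => Complex.I * J1 J p.2 * DD a c β p.1 p.2) (RS b₀ κ₂ ρ) :=
      (((J1_jd hP).mono hsub).const_mul _).mul ((DD_jd hE hP).mono hsub)
    refine ((N1_jd hE hP).mono hsub).mul (hden.inv ?_)
    intro p hp
    have h2 := J1_ne hP (lt_of_lt_of_le hp.2 hG.ρ1)
    have h3 := hG.D p.1 p.2 hp.2 hp.1.1 hp.1.2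
    exact mul_ne_zero (mul_ne_zero Complex.I_ne_zero h2) h3
  refine h1.congr fun p hp => ?_
  rw [ZE_eq hE hP (hsub hp).1, div_eq_mul_inv]

include hP in
theorem β_cont : ContinuousAt β 0 :=
  (hP.dβ.differentiableAt (ball_mem_nhds _ hP.hr)).continuousAt

include hP in
theorem tJ_cont (j : Fin 2) : ContinuousAt (tJ β j) 0 := by
  unfold tJ
  exact (continuousAt_const.mul (β_cont hP)).add continuousAt_const

include hP in
theorem tJ_im0 (j : Fin 2) : (tJ β j 0).im = b₀ := by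
  unfold tJ
  rw [hP.β0]
  simp

include hP hG in
theorem RS_mem0 (j : Fin 2) {τ : ℂ} (hτ : ‖τ‖ < κ₂) : (tJ β j 0 + τ, (0:ℂ)) ∈ RS b₀ κ₂ ρ := by
  have h1 := abs_lt.1 (lt_of_le_of_lt (Complex.abs_im_le_norm τ) hτ)
  have hb := hP.hb₀
  have h0 := hG.κ0
  have h2 := hG.κ1
  refine ⟨⟨?_, ?_⟩, by rw [norm_zero]; exact hG.ρ0⟩
  · simp only [Complex.add_im, tJ_im0 hP j]; linarith
  · simp only [Complex.add_im, tJ_im0 hP j]; linarith

include hE hP hG in
/-- joint continuity of the local function at `w = 0` -/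
theorem ZE_cont (j : Fin 2) {τ : ℂ} (hτ : ‖τ‖ < κ₂) :
    ContinuousAt (fun p : ℂ × ℂ => ZE a c β J (tJ β j p.2 + p.1) p.2) (τ, 0) := by
  have h1 : ContinuousAt (fun p : ℂ × ℂ => ZE a c β J p.1 p.2) (tJ β j 0 + τ, 0) :=
    ((ZE_jd hE hP hG).differentiableAt ((isOpen_RS _ _ _).mem_nhds (RS_mem0 hP hG j hτ))).continuousAt
  have h2 : ContinuousAt (fun p : ℂ × ℂ => (tJ β j p.2 + p.1, p.2)) (τ, 0) := by
    refine ContinuousAt.prodMk (ContinuousAt.add ?_ continuousAt_fst) continuousAt_snd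
    exact ContinuousAt.comp (f := Prod.snd) (x := (τ, (0:ℂ))) (tJ_cont hP j) continuousAt_snd
  exact ContinuousAt.comp (f := fun p : ℂ × ℂ => (tJ β j p.2 + p.1, p.2)) (x := (τ, (0:ℂ))) h1 h2

include hE hP hG in
theorem ZE_cont' (j : Fin 2) {τ : ℂ} (hτ : ‖τ‖ < κ₂) : ContinuousAt (fun w : ℂ => ZE a c β J (tJ β j w + τ) w) 0 :=
  ContinuousAt.comp (f := fun w : ℂ => (τ, w)) (x := (0:ℂ)) (ZE_cont hE hP hG j hτ) (by fun_prop)

include hE hP hG in
theorem ZE_even {w τ : ℂ} (hw : ‖w‖ < ρ) (hτ : ‖τ‖ < κ₂) (j : Fin 2) :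
    ZE a c β J (tJ β j w + -τ) w = ZE a c β J (tJ β j w + τ) w := by
  have hb := hP.hb₀
  have h2 := hG.κ1
  by_cases h : w = 0
  · subst h
    have c1 := (ZE_cont' hE hP hG j (τ := -τ) (by rwa [norm_neg])).tendsto.mono_left (nhdsWithin_le_nhds (s := {0}ᶜ))
    have c2 := (ZE_cont' hE hP hG j hτ).tendsto.mono_left (nhdsWithin_le_nhds (s := {0}ᶜ))
    refine tendsto_nhds_unique c1 (c2.congr' ?_)
    have : ball (0:ℂ) ρ ∈ 𝓝[≠] (0:ℂ) := mem_nhdsWithin_of_mem_nhds (ball_mem_nhds _ hG.ρ0)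
    filter_upwards [this, self_mem_nhdsWithin] with w hw hw0
    rw [mem_ball_zero_iff] at hw
    exact (ZE_even_ne hE hP (lt_of_lt_of_le hw hG.ρ1) hw0 (by linarith) j).symm
  · exact ZE_even_ne hE hP (lt_of_lt_of_le hw hG.ρ1) h (by linarith) j

include hE hP hG in
theorem ZE_real {w τ : ℂ} (hw : ‖w‖ < ρ) (hwr : w.im = 0) (hτ : ‖τ‖ < κ₂) (hτr : τ.im = 0) (j : Fin 2) :
    (starRingEnd ℂ) (ZE a c β J (tJ β j w + τ) w) = ZE a c β J (tJ β j w + τ) w := by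
  have hb := hP.hb₀
  have h2 := hG.κ1
  by_cases h : w = 0
  · subst h
    have c0 := (ZE_cont' hE hP hG j hτ).tendsto
    have c1 : Tendsto (fun x : ℝ => ZE a c β J (tJ β j (x:ℂ) + τ) (x:ℂ)) (𝓝[≠] 0) (𝓝 (ZE a c β J (tJ β j 0 + τ) 0)) := by
      have h3 : Tendsto (fun x : ℝ => (x:ℂ)) (𝓝[≠] 0) (𝓝 (0:ℂ)) := by
        have := (Complex.continuous_ofReal.tendsto 0).mono_left (nhdsWithin_le_nhds (s := {0}ᶜ))
        simpa using this
      exact c0.comp h3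
    have c2 := (Complex.continuous_conj.tendsto _).comp c1
    refine tendsto_nhds_unique c2 (c1.congr' ?_)
    have : ball (0:ℝ) ρ ∈ 𝓝[≠] (0:ℝ) := mem_nhdsWithin_of_mem_nhds (ball_mem_nhds _ hG.ρ0)
    filter_upwards [this, self_mem_nhdsWithin] with x hx hx0
    rw [mem_ball_zero_iff] at hx
    refine (ZE_real_ne hE hP ?_ ?_ ?_ hτr j).symm
    · rw [Complex.norm_real]; exact lt_of_lt_of_le hx hG.ρ1
    · exact Complex.ofReal_ne_zero.2 hx0
    · exact Complex.ofReal_im x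
  · exact ZE_real_ne hE hP (lt_of_lt_of_le hw hG.ρ1) h hwr hτr j

include hE hP in
/-- `g` is imaginary on the reals -/
theorem gg_imag {w x : ℂ} (hw : ‖w‖ < r) (hwr : w.im = 0) (hx : x.im = 0) (hxb : ‖x‖ < b₀) :
    (starRingEnd ℂ) (gg β x w) = -gg β x w := by
  have hne : ∀ x : ℂ, x.im = 0 → x ≠ 0 → (starRingEnd ℂ) (gg β x w) = -gg β x w := by
    intro x hx h0
    have h1 := ee_imag hE hP hw hwr hx
    rw [ee_mul hE hP hw, map_mul, Complex.conj_eq_iff_im.2 hx] at h1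
    have h2 : x * ((starRingEnd ℂ) (gg β x w) + gg β x w) = 0 := by linear_combination h1
    have h3 := (mul_eq_zero.1 h2).resolve_left h0
    linear_combination h3
  by_cases h : x = 0
  · subst h
    have hc : ContinuousAt (fun x : ℂ => gg β x w) 0 := by
      have h1 : ContinuousAt (fun p : ℂ × ℂ => gg β p.1 p.2) (0, w) :=
        ((gg_jd hE hP).differentiableAt ((isOpen_ball.prod isOpen_ball).mem_nhds
          ⟨mem_ball_self hP.hb₀, by simpa using hw⟩)).continuousAt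
      exact ContinuousAt.comp (f := fun x : ℂ => (x, w)) (x := (0:ℂ)) h1 (by fun_prop)
    have c1 : Tendsto (fun x : ℝ => gg β (x:ℂ) w) (𝓝[≠] 0) (𝓝 (gg β 0 w)) := by
      have h3 : Tendsto (fun x : ℝ => (x:ℂ)) (𝓝[≠] 0) (𝓝 (0:ℂ)) := by
        have := (Complex.continuous_ofReal.tendsto 0).mono_left (nhdsWithin_le_nhds (s := {0}ᶜ))
        simpa using this
      exact hc.tendsto.comp h3
    have c2 := (Complex.continuous_conj.tendsto _).comp c1
    refine tendsto_nhds_unique c2 (c1.neg.congr' ?_)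
    filter_upwards [self_mem_nhdsWithin] with x hx0
    exact (hne x (Complex.ofReal_im x) (Complex.ofReal_ne_zero.2 hx0)).symm
  · exact hne x hx h

end

end Vale.Agent.P097.H60
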