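import Vale.Agent.P097.H60.Good

/-! # P097 / H60 : [LFC] -/

set_option linter.all false

open scoped Topology
open Filter Set Metric

namespace Vale.Agent.P097.H60

open Vale.Agent.P097 Vale.Agent.P097.LR

/-- value at the isotropic point -/
noncomputable def s1 (a c b₀ : ℝ) (β J : ℂ → ℂ) (j : Fin 2) : ℂ := ZE a c β J (xi b₀ (j : ℕ)) 0

/-- local quotient -/
noncomputable def UU (a c b₀ : ℝ) (β J : ℂ → ℂ) (j : Fin 2) (τ w : ℂ) : ℂ :=
  4 * a * c * (gg β (τ + w / 2) w * gg β (τ - w / 2) w) *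
    ((a + c) * DD a c β (tJ β j w + τ) w * (ZE a c β J (tJ β j w + τ) w + s1 a c b₀ β J j))⁻¹

section
variable {a c b₀ r : ℝ} {β J : ℂ → ℂ} (hE : EFac) (hP : PAR a c b₀ r β J)

include hP in
theorem tJ_zero (j : Fin 2) : tJ β j 0 = xi b₀ (j : ℕ) := by
  unfold tJ xi
  rw [hP.β0]
  push_cast
  ring

variable {κ₂ ρ : ℝ} (hG : Good a c b₀ r β J κ₂ ρ)

include hE hP hG in
theorem s1_sq (j : Fin 2) : s1 a c b₀ β J j ^ 2 * (a + c) = a - c := by
  have h0 : ‖(0:ℂ)‖ < r := by rw [norm_zero]; exact hP.hr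
  have hm := RS_mem0 hP hG j (τ := 0) (by rw [norm_zero]; exact hG.κ0)
  have h1 := hG.Z _ _ hm.2 hm.1.1 hm.1.2
  have hy : yy β (tJ β j 0 + 0) 0 = 0 := by
    rw [yy_tJ hE hP h0, zero_div, add_zero, ee_zero hE hP h0, zero_mul]
  simp only at h1
  unfold DD at h1
  rw [hy, mul_zero, mul_zero, add_zero, add_zero, add_zero] at h1
  unfold s1
  rw [← tJ_zero hP]
  exact h1

include hE hP hG in
theorem s1_ne (hc : 0 < c) (hca : c < a) (j : Fin 2) : s1 a c b₀ β J j ≠ 0 := by
  intro h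
  have h1 := s1_sq hE hP hG j
  rw [h] at h1
  have h2 : (a:ℂ) - c = 0 := by rw [← h1]; ring
  have h3 : a - c = 0 := by exact_mod_cast h2
  linarith

include hE hP hG in
theorem s1_real (j : Fin 2) : (starRingEnd ℂ) (s1 a c b₀ β J j) = s1 a c b₀ β J j := by
  have h := ZE_real hE hP hG (w := 0) (τ := 0) (by rw [norm_zero]; exact hG.ρ0) (by simp) (by rw [norm_zero]; exact hG.κ0) (by simp) j
  rw [add_zero, tJ_zero hP] at h
  exact h

include hE hP hG in
/-- the sum does not vanish near the isotropic point -/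
theorem near_ne (hc : 0 < c) (hca : c < a) (j : Fin 2) : ∃ δ : ℝ, 0 < δ ∧ ∀ τ w : ℂ, ‖τ‖ < δ → ‖w‖ < δ →
    ZE a c β J (tJ β j w + τ) w + s1 a c b₀ β J j ≠ 0 := by
  have hs := s1_ne hE hP hG hc hca j
  have h1 := ZE_cont hE hP hG j (τ := 0) (by rw [norm_zero]; exact hG.κ0)
  rw [Metric.continuousAt_iff] at h1
  obtain ⟨δ, hδ, h⟩ := h1 ‖s1 a c b₀ β J j‖ (norm_pos_iff.2 hs)
  refine ⟨δ, hδ, fun τ w hτ hw h0 => ?_⟩
  have h2 := h (x := (τ, w)) (by
    rw [dist_eq_norm, Prod.mk_sub_mk, sub_zero, sub_zero, Prod.norm_def]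
    exact max_lt hτ hw)
  simp only [add_zero, tJ_zero hP] at h2
  rw [dist_eq_norm] at h2
  have h3 : ZE a c β J (tJ β j w + τ) w = -s1 a c b₀ β J j := by linear_combination h0
  rw [h3] at h2
  have h4 : -s1 a c b₀ β J j - ZE a c β J (xi b₀ (j : ℕ)) 0 = -(2 * s1 a c b₀ β J j) := by
    unfold s1; ring
  rw [h4, norm_neg, norm_mul] at h2
  have h5 : ‖(2:ℂ)‖ = 2 := by simp
  rw [h5] at h2
  linarith [norm_nonneg (s1 a c b₀ β J j)]

include hE hP hG in
/-- the derivative of the bounce point at `w = 0` -/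
theorem deriv_ne (hc : 0 < c) (hca : c < a) {t : ℂ} (ht : -κ₂ < t.im) (ht' : t.im < b₀ + κ₂) (hxi : ∀ k : ℤ, t ≠ xi b₀ k) :
    deriv (fun t => ZE a c β J t 0) t ≠ 0 := by
  have hb := hP.hb₀
  have hκ1 := hG.κ1
  have hκ0 := hG.κ0
  have h0r : ‖(0:ℂ)‖ < r := by rw [norm_zero]; exact hP.hr
  set S : Set ℂ := {t : ℂ | -κ₂ < t.im ∧ t.im < b₀ + κ₂} with hS
  have oS : IsOpen S := (isOpen_lt continuous_const Complex.continuous_im).inter (isOpen_lt Complex.continuous_im continuous_const)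
  have cS : IsPreconnected S := by
    have : Convex ℝ S := by
      have h1 : S = Complex.imLm ⁻¹' (Ioo (-κ₂) (b₀ + κ₂)) := rfl
      rw [h1]
      exact (convex_Ioo _ _).linear_preimage _
    exact this.isPreconnected
  have hV : ∀ t ∈ S, t ∈ VT b₀ := fun t ht => ⟨by linarith [ht.1], by linarith [ht.2]⟩
  set z : ℂ → ℂ := fun t => ZE a c β J t 0 with hz
  have dz : DifferentiableOn ℂ z S :=
    (ZE_jd hE hP hG).comp (f := fun t : ℂ => (t, (0:ℂ))) (by fun_prop) (fun t ht => ⟨ht, by rw [norm_zero]; exact hG.ρ0⟩)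
  have dE : DifferentiableOn ℂ (Et (β 0)) S :=
    (F_jd hE hP).comp (f := fun t : ℂ => (t, (0:ℂ))) (by fun_prop) (fun t ht => ⟨⟨by simp only; linarith [ht.1], by simp only; linarith [ht.2]⟩, h0r⟩)
  set e : ℂ → ℂ := Et (β 0) with he
  have hyy : ∀ t, yy β t 0 = e t ^ 2 := by
    intro t
    unfold yy
    rw [zero_div, add_zero, sub_zero, sq]
  set k : ℂ := Complex.I * deriv J 0 with hk
  have hk0 : k ≠ 0 := mul_ne_zero Complex.I_ne_zero hP.J'
  set D : ℂ → ℂ := fun t => (a + c) + (a - c) * e t ^ 2 with hD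
  have hDne : ∀ t ∈ S, D t ≠ 0 := by
    intro t ht
    have := hG.D t 0 (by rw [norm_zero]; exact hG.ρ0) ht.1 ht.2
    unfold DD at this
    rwa [hyy] at this
  have R1 : ∀ t ∈ S, z t ^ 2 * D t = (a - c) + (a + c) * e t ^ 2 := by
    intro t ht
    have := hG.Z t 0 (by rw [norm_zero]; exact hG.ρ0) ht.1 ht.2
    unfold DD at this
    rwa [hyy] at this
  have R2 : ∀ t ∈ S, z t * (k * D t) = deriv e t := by
    intro t ht
    have h1 : z t = N1 β t 0 / (Complex.I * J1 J 0 * DD a c β t 0) := ZE_eq hE hP (hV t ht)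
    rw [h1, N1_zero hE hP (hV t ht), J1_zero]
    unfold DD
    rw [hyy]
    have h2 : k * D t ≠ 0 := mul_ne_zero hk0 (hDne t ht)
    exact div_mul_cancel₀ _ h2
  have key : ∀ t ∈ S, z t * (deriv z t * D t - 4 * a * c * k * e t) = 0 := by
    intro t ht
    have hz' := (dz.differentiableAt (oS.mem_nhds ht)).hasDerivAt
    have he' := (dE.differentiableAt (oS.mem_nhds ht)).hasDerivAt
    have d1 : HasDerivAt (fun t => z t ^ 2 * D t) (2 * z t * deriv z t * D t + z t ^ 2 * ((a - c) * (2 * e t * deriv e t))) t := by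
      have hD' : HasDerivAt D ((a - c) * (2 * e t * deriv e t)) t := by
        have := ((he'.pow 2).const_mul ((a:ℂ) - c)).const_add ((a:ℂ) + c)
        refine this.congr_deriv ?_
        push_cast
        ring
      refine ((hz'.pow 2).mul hD').congr_deriv ?_
      push_cast
      simp only [Pi.pow_apply]
      ring
    have d2 : HasDerivAt (fun t => ((a:ℂ) - c) + (a + c) * e t ^ 2) ((a + c) * (2 * e t * deriv e t)) t := by
      have := ((he'.pow 2).const_mul ((a:ℂ) + c)).const_add ((a:ℂ) - c)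
      refine this.congr_deriv ?_
      push_cast
      ring
    have h3 : 2 * z t * deriv z t * D t + z t ^ 2 * ((a - c) * (2 * e t * deriv e t)) = (a + c) * (2 * e t * deriv e t) := by
      refine d1.unique (d2.congr_of_eventuallyEq ?_)
      filter_upwards [oS.mem_nhds ht] with t ht using R1 t ht
    have h4 := R1 t ht
    have h5 := R2 t ht
    have hDt : D t = (a + c) + (a - c) * e t ^ 2 := rfl
    have h6 := hDne t ht
    -- multiply by `D`
    have h7 : D t * (z t * (deriv z t * D t - 4 * a * c * k * e t)) = 0 := by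
      have e1 : z t * deriv z t * D t = e t * deriv e t * ((a + c) - (a - c) * z t ^ 2) := by linear_combination h3 / 2
      have e2 : ((a + c) - (a - c) * z t ^ 2) * D t = 4 * a * c := by
        linear_combination (-(a - c) : ℂ) * h4 + (a + c) * hDt
      linear_combination D t * e1 + e t * deriv e t * e2 - 4 * a * c * e t * h5
    exact (mul_eq_zero.1 h7).resolve_left h6
  have dDz : DifferentiableOn ℂ (fun t => deriv z t * D t - 4 * a * c * k * e t) S := by
    have h1 : DifferentiableOn ℂ (deriv z) S := dz.deriv oS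
    have h2 : DifferentiableOn ℂ D S := by
      rw [hD]
      exact ((dE.pow 2).const_mul _).const_add _
    exact (h1.mul h2).sub (dE.const_mul _)
  rcases AnalyticOnNhd.eq_zero_or_eq_zero_of_mul_eq_zero (dz.analyticOnNhd oS) (dDz.analyticOnNhd oS) key cS with h | h
  · exfalso
    have hmem : xi b₀ ((0 : Fin 2) : ℕ) ∈ S := by
      rw [← tJ_zero hP]
      have := (RS_mem0 hP hG 0 (τ := 0) (by rw [norm_zero]; exact hG.κ0)).1
      simp only [add_zero] at this
      exact this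
    exact s1_ne hE hP hG hc hca 0 (h _ hmem)
  · have h1 := h t ⟨ht, ht'⟩
    intro h2
    have h2' : deriv z t = 0 := h2
    rw [h2', zero_mul, zero_sub, neg_eq_zero] at h1
    have h3 : e t = 0 := by
      have h4 : (4 * a * c * k : ℂ) ≠ 0 := by
        refine mul_ne_zero (mul_ne_zero (mul_ne_zero (by norm_num) ?_) ?_) hk0
        · exact_mod_cast (by linarith : a ≠ 0)
        · exact_mod_cast hc.ne'
      exact (mul_eq_zero.1 h1).resolve_left h4
    have hbre := β_pos hP h0r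
    have hb1 := hP.β0
    have hre : (β 0).re = b₀ := by rw [hb1]; simp
    obtain ⟨n, hn⟩ := ((hE.2 _ hbre).2.2.2.2.1 t (by rw [hre]; linarith) (by rw [hre]; linarith)).1 h3
    apply hxi n
    rw [hn, hb1]
    unfold xi
    ring

include hP in
theorem βnear {κ : ℝ} (hκ : 0 < κ) : ∃ δ : ℝ, 0 < δ ∧ ∀ w : ℂ, ‖w‖ < δ → ‖β w - b₀‖ < κ := by
  have h := β_cont hP
  rw [Metric.continuousAt_iff] at h
  obtain ⟨δ, hδ, h⟩ := h κ hκ
  refine ⟨δ, hδ, fun w hw => ?_⟩
  have := h (x := w) (by rwa [dist_zero_right])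
  rwa [dist_eq_norm, hP.β0] at this

end

end Vale.Agent.P097.H60
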