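import Vale.Agent.P097.H60.Lfa

/-! # P097 / H60 : [LFC], local lemmas -/

set_option linter.all false

open scoped Topology
open Filter Set Metric

namespace Vale.Agent.P097.H60

open Vale.Agent.P097 Vale.Agent.P097.LR

/-- the local region -/
structure Lg (a c b₀ r : ℝ) (β J : ℂ → ℂ) (κ₂ ρ κ r₁ : ℝ) : Prop where
  hκ : 0 < κ
  hκκ : κ ≤ κ₂ / 2
  hr₁ : 0 < r₁
  hr₁ρ : r₁ ≤ ρ
  hr₁κ : r₁ ≤ κ
  hβ : ∀ w : ℂ, ‖w‖ < r₁ → ‖β w - b₀‖ < κ / 2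
  hne : ∀ j : Fin 2, ∀ τ w : ℂ, ‖τ‖ < κ → ‖w‖ < r₁ → ZE a c β J (tJ β j w + τ) w + s1 a c b₀ β J j ≠ 0

def LS (κ r₁ : ℝ) : Set (ℂ × ℂ) := {p | ‖p.1‖ < κ ∧ ‖p.2‖ < r₁}

section
variable {a c b₀ r : ℝ} {β J : ℂ → ℂ} (hE : EFac) (hP : PAR a c b₀ r β J)
variable {κ₂ ρ : ℝ} (hG : Good a c b₀ r β J κ₂ ρ)
variable {κ r₁ : ℝ} (hL : Lg a c b₀ r β J κ₂ ρ κ r₁)

include hP hL in
theorem L_RS (j : Fin 2) {τ w : ℂ} (hτ : ‖τ‖ < κ) (hw : ‖w‖ < r₁) : (tJ β j w + τ, w) ∈ RS b₀ κ₂ ρ := by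
  have hκκ := hL.hκκ
  have hκ := hL.hκ
  have hb := hP.hb₀
  have h1 := abs_lt.1 (lt_of_le_of_lt (Complex.abs_im_le_norm τ) hτ)
  have h2 := abs_lt.1 (lt_of_le_of_lt (Complex.abs_re_le_norm _) (hL.hβ w hw))
  rw [Complex.sub_re, Complex.ofReal_re] at h2
  have h3 : (tJ β j w + τ).im = (β w).re + τ.im := by
    unfold tJ
    simp
  refine ⟨⟨?_, ?_⟩, lt_of_lt_of_le hw hL.hr₁ρ⟩
  · simp only [h3]; linarith
  · simp only [h3]; linarith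

include hG hL in
theorem L_r {w : ℂ} (hw : ‖w‖ < r₁) : ‖w‖ < r := lt_of_lt_of_le hw (hL.hr₁ρ.trans hG.ρ1)

include hL in
theorem L_κ₂ {τ : ℂ} (hτ : ‖τ‖ < κ) : ‖τ‖ < κ₂ := by
  have := hL.hκκ
  have := hL.hκ
  linarith

include hP hG hL in
theorem L_b {τ : ℂ} (hτ : ‖τ‖ < κ) : ‖τ‖ < b₀ / 2 := by
  have := hL.hκκ
  have := hL.hκ
  have := hG.κ1
  have := hP.hb₀
  linarith

include hP hG hL in
theorem L_gm {τ w : ℂ} (hτ : ‖τ‖ < κ) (hw : ‖w‖ < r₁) : ‖τ + w / 2‖ < b₀ ∧ ‖τ - w / 2‖ < b₀ := by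
  have h1 : ‖w / 2‖ = ‖w‖ / 2 := by simp
  have h2 := L_b hP hG hL hτ
  have h3 := hL.hκκ
  have h4 := hG.κ1
  have h5 := hL.hr₁κ
  have h6 := hP.hb₀
  constructor
  · exact (norm_add_le _ _).trans_lt (by rw [h1]; linarith)
  · exact (norm_sub_le _ _).trans_lt (by rw [h1]; linarith)

include hE hP hG hL in
theorem gp_jd : DifferentiableOn ℂ (fun p : ℂ × ℂ => gg β (p.1 + p.2 / 2) p.2) (LS κ r₁) :=
  (gg_jd hE hP).comp (f := fun p : ℂ × ℂ => (p.1 + p.2 / 2, p.2)) (by fun_prop) (fun p hp =>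
    ⟨by rw [mem_ball_zero_iff]; exact (L_gm hP hG hL hp.1 hp.2).1, by rw [mem_ball_zero_iff]; exact L_r hG hL hp.2⟩)

include hE hP hG hL in
theorem gm_jd : DifferentiableOn ℂ (fun p : ℂ × ℂ => gg β (p.1 - p.2 / 2) p.2) (LS κ r₁) :=
  (gg_jd hE hP).comp (f := fun p : ℂ × ℂ => (p.1 - p.2 / 2, p.2)) (by fun_prop) (fun p hp =>
    ⟨by rw [mem_ball_zero_iff]; exact (L_gm hP hG hL hp.1 hp.2).2, by rw [mem_ball_zero_iff]; exact L_r hG hL hp.2⟩)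

include hP hG hL in
theorem tJ_jd (j : Fin 2) : DifferentiableOn ℂ (fun p : ℂ × ℂ => (tJ β j p.2 + p.1, p.2)) (LS κ r₁) := by
  have hβd : DifferentiableOn ℂ (fun p : ℂ × ℂ => β p.2) (LS κ r₁) :=
    hP.dβ.comp (f := fun p : ℂ × ℂ => p.2) (by fun_prop) (fun p hp => by rw [mem_ball_zero_iff]; exact L_r hG hL hp.2)
  have h1 : DifferentiableOn ℂ (fun p : ℂ × ℂ => tJ β j p.2) (LS κ r₁) := by
    unfold tJ
    exact (hβd.const_mul _).add_const _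
  exact (h1.add differentiableOn_fst).prodMk differentiableOn_snd

include hE hP hG hL in
theorem Zt_jd (j : Fin 2) : DifferentiableOn ℂ (fun p : ℂ × ℂ => ZE a c β J (tJ β j p.2 + p.1) p.2) (LS κ r₁) :=
  (ZE_jd hE hP hG).comp (f := fun p : ℂ × ℂ => (tJ β j p.2 + p.1, p.2)) (tJ_jd hP hG hL j)
    (fun p hp => L_RS hP hL j hp.1 hp.2)

include hE hP hG hL in
theorem Dt_jd (j : Fin 2) : DifferentiableOn ℂ (fun p : ℂ × ℂ => DD a c β (tJ β j p.2 + p.1) p.2) (LS κ r₁) :=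
  (DD_jd hE hP).comp (f := fun p : ℂ × ℂ => (tJ β j p.2 + p.1, p.2)) (tJ_jd hP hG hL j)
    (fun p hp => RS_sub hP hG (L_RS hP hL j hp.1 hp.2))

include hP hG hL in
theorem den_ne (hc : 0 < c) (hca : c < a) (j : Fin 2) {τ w : ℂ} (hτ : ‖τ‖ < κ) (hw : ‖w‖ < r₁) :
    ((a:ℂ) + c) * DD a c β (tJ β j w + τ) w * (ZE a c β J (tJ β j w + τ) w + s1 a c b₀ β J j) ≠ 0 := by
  have hm := L_RS hP hL j hτ hw
  have h1 := hG.D _ _ hm.2 hm.1.1 hm.1.2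
  have h2 := hL.hne j τ w hτ hw
  have h3 : ((a:ℂ) + c) ≠ 0 := by exact_mod_cast (by linarith : a + c ≠ 0)
  exact mul_ne_zero (mul_ne_zero h3 h1) h2

include hE hP hG hL in
theorem UU_jd (hc : 0 < c) (hca : c < a) (j : Fin 2) : JD (UU a c b₀ β J j) (LS κ r₁) := by
  unfold JD
  have h1 : DifferentiableOn ℂ (fun p : ℂ × ℂ => 4 * (a:ℂ) * c * (gg β (p.1 + p.2 / 2) p.2 * gg β (p.1 - p.2 / 2) p.2)) (LS κ r₁) :=
    DifferentiableOn.const_mul (DifferentiableOn.mul (gp_jd hE hP hG hL) (gm_jd hE hP hG hL)) _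
  have h2 : DifferentiableOn ℂ (fun p : ℂ × ℂ => ((a:ℂ) + c) * DD a c β (tJ β j p.2 + p.1) p.2) (LS κ r₁) :=
    DifferentiableOn.const_mul (Dt_jd hE hP hG hL j) _
  have h3 : DifferentiableOn ℂ (fun p : ℂ × ℂ => ZE a c β J (tJ β j p.2 + p.1) p.2 + s1 a c b₀ β J j) (LS κ r₁) :=
    DifferentiableOn.add_const _ (Zt_jd hE hP hG hL j)
  have h4 := DifferentiableOn.mul h2 h3
  have h5 := DifferentiableOn.inv h4 (fun p hp => den_ne hP hG hL hc hca j hp.1 hp.2)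
  have h6 := DifferentiableOn.mul h1 h5
  refine h6.congr fun p hp => ?_
  rfl

include hE hP hG hL in
theorem UU_0 (hc : 0 < c) (hca : c < a) (j : Fin 2) : UU a c b₀ β J j 0 0 ≠ 0 := by
  have h0 : ‖(0:ℂ)‖ < κ := by rw [norm_zero]; exact hL.hκ
  have h0' : ‖(0:ℂ)‖ < r₁ := by rw [norm_zero]; exact hL.hr₁
  have h1 := den_ne hP hG hL hc hca j h0 h0'
  have h2 : (4 * a * c : ℂ) ≠ 0 := by
    have h3 : (a : ℂ) ≠ 0 := by exact_mod_cast (by linarith : a ≠ 0)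
    have h4 : (c : ℂ) ≠ 0 := by exact_mod_cast hc.ne'
    exact mul_ne_zero (mul_ne_zero (by norm_num) h3) h4
  unfold UU
  refine mul_ne_zero (mul_ne_zero h2 ?_) (inv_ne_zero h1)
  rw [zero_div, add_zero, sub_zero]
  exact mul_ne_zero (gg_zero_ne hE hP) (gg_zero_ne hE hP)

include hE hP hG hL in
theorem UU_re (j : Fin 2) (τ w : ℝ) (hτ : |τ| < κ) (hw : |w| < r₁) : (UU a c b₀ β J j τ w).im = 0 := by
  have hτ' : ‖(τ:ℂ)‖ < κ := by rw [Complex.norm_real]; exact hτ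
  have hw' : ‖(w:ℂ)‖ < r₁ := by rw [Complex.norm_real]; exact hw
  rw [← Complex.conj_eq_iff_im]
  have hwr : ‖(w:ℂ)‖ < r := L_r hG hL hw'
  have e1 := gg_imag hE hP (w := (w:ℂ)) (x := (τ:ℂ) + w / 2) hwr (Complex.ofReal_im w) (by simp) (L_gm hP hG hL hτ' hw').1
  have e2 := gg_imag hE hP (w := (w:ℂ)) (x := (τ:ℂ) - w / 2) hwr (Complex.ofReal_im w) (by simp) (L_gm hP hG hL hτ' hw').2
  have e3 := DD_real hE hP (a := a) (c := c) (w := (w:ℂ)) (τ := (τ:ℂ)) hwr (Complex.ofReal_im w) (Complex.ofReal_im τ) j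
  have e4 := ZE_real hE hP hG (w := (w:ℂ)) (τ := (τ:ℂ)) (lt_of_lt_of_le hw' hL.hr₁ρ) (Complex.ofReal_im w) (L_κ₂ hL hτ') (Complex.ofReal_im τ) j
  have e5 := s1_real hE hP hG j
  unfold UU
  rw [map_mul, map_mul, map_mul, map_mul, map_mul, map_inv₀, map_mul, map_mul, map_add, map_add, e1, e2, e3, e4, e5]
  simp only [Complex.conj_ofReal, map_ofNat]
  rw [neg_mul_neg]

include hE hP hG hL in
theorem UU_ev (j : Fin 2) {τ w : ℂ} (hτ : ‖τ‖ < κ) (hw : ‖w‖ < r₁) :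
    UU a c b₀ β J j (-τ) w = UU a c b₀ β J j τ w := by
  have hwr : ‖w‖ < r := L_r hG hL hw
  have hτ2 : ‖τ‖ < b₀ / 2 := L_b hP hG hL hτ
  obtain ⟨h1, h2⟩ := im_bound hE hP hwr hτ2
  have e1 : gg β (-τ + w / 2) w = gg β (τ - w / 2) w := by
    rw [← gg_even hE hP hwr h2]
    congr 1
    ring
  have e2 : gg β (-τ - w / 2) w = gg β (τ + w / 2) w := by
    rw [← gg_even hE hP hwr h1]
    congr 1
    ring
  have e3 : DD a c β (tJ β j w + -τ) w = DD a c β (tJ β j w + τ) w := by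
    unfold DD
    rw [yy_even hE hP hwr hτ2]
  have e4 := ZE_even hE hP hG (w := w) (τ := τ) (lt_of_lt_of_le hw hL.hr₁ρ) (L_κ₂ hL hτ) j
  unfold UU
  rw [e1, e2, e3, e4, mul_comm (gg β (τ - w / 2) w)]

theorem loc_alg {a c Z s D y I x : ℂ} (hac : a + c ≠ 0) (hD : D ≠ 0) (hn : Z + s ≠ 0)
    (hZ : Z ^ 2 * D = (a - c) + (a + c) * y) (hs : s ^ 2 * (a + c) = a - c)
    (hDdef : D = (a + c) + (a - c) * y) (hy : y = I * x) :
    Z - s = I * (4 * a * c * x * ((a + c) * D * (Z + s))⁻¹) := by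
  have h1 : (Z - s) * ((a + c) * D * (Z + s)) = 4 * a * c * y := by
    linear_combination (a + c : ℂ) * hZ - D * hs - (a - c : ℂ) * hDdef
  have h2 : Z - s = 4 * a * c * y * ((a + c) * D * (Z + s))⁻¹ := by
    rw [← h1, mul_assoc, mul_inv_cancel₀ (mul_ne_zero (mul_ne_zero hac hD) hn), mul_one]
  rw [hy] at h2
  linear_combination h2

include hE hP hG hL in
theorem UU_loc (hc : 0 < c) (hca : c < a) (j : Fin 2) {τ w : ℂ} (hτ : ‖τ‖ < κ) (hw : ‖w‖ < r₁) :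
    ZE a c β J (tJ β j w + τ) w - s1 a c b₀ β J j = (τ ^ 2 - w ^ 2 / 4) * UU a c b₀ β J j τ w := by
  have hwr : ‖w‖ < r := L_r hG hL hw
  have hm := L_RS hP hL j hτ hw
  have hD := hG.D _ _ hm.2 hm.1.1 hm.1.2
  have hZ := hG.Z _ _ hm.2 hm.1.1 hm.1.2
  have hn := hL.hne j τ w hτ hw
  have hs := s1_sq hE hP hG j
  have hy := yy_tJ hE hP hwr j τ
  rw [ee_mul hE hP hwr, ee_mul hE hP hwr] at hy
  have hac : ((a:ℂ) + c) ≠ 0 := by exact_mod_cast (by linarith : a + c ≠ 0)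
  have hy' : yy β (tJ β j w + τ) w = (τ ^ 2 - w ^ 2 / 4) * (gg β (τ + w / 2) w * gg β (τ - w / 2) w) := by
    rw [hy]; ring
  have := loc_alg hac hD hn hZ hs rfl hy'
  exact this

end

end Vale.Agent.P097.H60
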