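import Vale.Agent.P097.H60.Lfb

/-! # P097 / H60 : [LFC] -/

set_option linter.all false

open scoped Topology
open Filter Set Metric

namespace Vale.Agent.P097.H60

open Vale.Agent.P097 Vale.Agent.P097.LR

section
variable {a c b₀ r : ℝ} {β J : ℂ → ℂ} (hE : EFac) (hP : PAR a c b₀ r β J)
variable {κ₂ ρ : ℝ} (hG : Good a c b₀ r β J κ₂ ρ)

include hE hP hG in
theorem exists_Lg (hc : 0 < c) (hca : c < a) : ∃ κ r₁, Lg a c b₀ r β J κ₂ ρ κ r₁ := by
  have hb := hP.hb₀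
  have hκ0 := hG.κ0
  have hρ0 := hG.ρ0
  obtain ⟨δ0, hδ0, hne0⟩ := near_ne hE hP hG hc hca 0
  obtain ⟨δ1, hδ1, hne1⟩ := near_ne hE hP hG hc hca 1
  have hκ : 0 < min (κ₂ / 2) (min δ0 δ1) := by positivity
  obtain ⟨δβ, hδβ, hβ⟩ := βnear hP (κ := min (κ₂ / 2) (min δ0 δ1) / 2) (by positivity)
  refine ⟨min (κ₂ / 2) (min δ0 δ1), min ρ (min δβ (min (κ₂ / 2) (min δ0 δ1))), hκ, min_le_left _ _, by positivity,
    min_le_left _ _, (min_le_right _ _).trans (min_le_right _ _), ?_, ?_⟩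
  · intro w hw
    exact hβ w (lt_of_lt_of_le hw ((min_le_right _ _).trans (min_le_left _ _)))
  · intro j τ w hτ hw
    have hw' : ‖w‖ < min (κ₂ / 2) (min δ0 δ1) := lt_of_lt_of_le hw ((min_le_right _ _).trans (min_le_right _ _))
    fin_cases j
    · exact hne0 τ w (lt_of_lt_of_le hτ ((min_le_right _ _).trans (min_le_left _ _)))
        (lt_of_lt_of_le hw' ((min_le_right _ _).trans (min_le_left _ _)))
    · exact hne1 τ w (lt_of_lt_of_le hτ ((min_le_right _ _).trans (min_le_right _ _)))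
        (lt_of_lt_of_le hw' ((min_le_right _ _).trans (min_le_right _ _)))

include hE hP in
theorem ZE_per {t w : ℂ} (hw : ‖w‖ < r) : ZE a c β J (t + 1) w = ZE a c β J t w := by
  have hb' := β_pos hP hw
  unfold ZE
  by_cases h : w = 0
  · subst h
    rw [if_pos rfl, if_pos rfl, E_add_one hE hb']
    have h1 : deriv (Et (β 0)) (t + 1) = deriv (Et (β 0)) t := by
      rw [← deriv_comp_add_const]
      congr 1
      funext x
      exact E_add_one hE hb' x
    rw [h1]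
  · rw [if_neg h, if_neg h, show t + 1 + w / 2 = t + w / 2 + 1 by ring, show t + 1 - w / 2 = t - w / 2 + 1 by ring,
      E_add_one hE hb', E_add_one hE hb']

include hP in
theorem ZE_wev {t w : ℂ} (hw : ‖w‖ < r) : ZE a c β J t (-w) = ZE a c β J t w := by
  by_cases h : w = 0
  · rw [h, neg_zero]
  · unfold ZE
    rw [if_neg h, if_neg (neg_ne_zero.2 h), hP.βev w hw, hP.Jodd w hw, show t + -w / 2 = t - w / 2 by ring,
      show t - -w / 2 = t + w / 2 by ring]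
    rw [show Et (β w) (t - w / 2) - Et (β w) (t + w / 2) = -(Et (β w) (t + w / 2) - Et (β w) (t - w / 2)) by ring,
      show Complex.I * -J w * ((a:ℂ) + c + (a - c) * (Et (β w) (t - w / 2) * Et (β w) (t + w / 2))) =
        -(Complex.I * J w * ((a:ℂ) + c + (a - c) * (Et (β w) (t + w / 2) * Et (β w) (t - w / 2)))) by ring, neg_div_neg_eq]

variable {κ r₁ : ℝ} (hL : Lg a c b₀ r β J κ₂ ρ κ r₁)

include hE hP hG hL in
theorem isoL (hc : 0 < c) (hca : c < a) (j : Fin 2) :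
    Iso (xi b₀ (j : ℕ)) κ r₁ (s1 a c b₀ β J j) (ZE a c β J) (tJ β j) (UU a c b₀ β J j) := by
  refine ⟨hL.hκ, hL.hr₁, ?_, tJ_zero hP j, ?_, UU_jd hE hP hG hL hc hca j, UU_0 hE hP hG hL hc hca j,
    UU_re hE hP hG hL j, fun τ w hτ hw => UU_ev hE hP hG hL j hτ hw, ?_⟩
  · unfold tJ
    exact (((hP.dβ.mono (ball_subset_ball (hL.hr₁ρ.trans hG.ρ1))).const_mul _).add_const _)
  · intro w hw
    unfold tJ
    rw [hP.βev w (L_r hG hL hw)]
  · intro τ w hτ hw
    have h := UU_loc hE hP hG hL hc hca j hτ hw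
    rw [← h]
    ring

end

/-- **[LFC]** -/
theorem lfc (hE : EFac) (hBQ : BQ) : LFC := by
  intro a c hc hca b₀ r β J hP
  obtain ⟨r', hr', hr'r, hB⟩ := hBQ a c hc hca b₀ r β J hP
  obtain ⟨κ₂, ρ, hG⟩ := exists_good hE hP hc hca hr' hr'r hB
  obtain ⟨κ, r₁, hL⟩ := exists_Lg hE hP hG hc hca
  have hb := hP.hb₀
  have hκ1 := hG.κ1
  have hκκ := hL.hκκ
  have hκ := hL.hκ
  refine ⟨κ, r₁, s1 a c b₀ β J, tJ β, UU a c b₀ β J, hL.hr₁ρ.trans hG.ρ1, hκ, by linarith, hL.hr₁, ?_, ?_, ?_, ?_, ?_, ?_⟩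
  · refine (ZE_jd hE hP hG).mono ?_
    rintro p ⟨h1, h2, h3⟩
    exact ⟨⟨by linarith, by linarith⟩, lt_of_lt_of_le h3 hL.hr₁ρ⟩
  · intro t w ht ht' hw
    exact ZE_per hE hP (L_r hG hL hw)
  · intro t w ht ht' hw
    exact ZE_wev hP (L_r hG hL hw)
  · intro t ht ht' hxi
    exact deriv_ne hE hP hG hc hca (by linarith) (by linarith) hxi
  · exact fun j => isoL hE hP hG hL hc hca j
  · intro j w hw
    have h1 : tJ β j w - xi b₀ (j : ℕ) = Complex.I * (β w - b₀) := by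
      unfold tJ xi
      push_cast
      ring
    rw [h1, norm_mul, Complex.norm_I, one_mul]
    exact hL.hβ w hw

end Vale.Agent.P097.H60
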