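import Vale.Agent.P097.H60.Zed

/-! # P097 / H60 : near the isotropic points -/

set_option linter.all false

open scoped Topology
open Filter Set Metric

namespace Vale.Agent.P097.H60

open Vale.Agent.P097 Vale.Agent.P097.LR

/-- `E` near its zero -/
noncomputable def ee (β : ℂ → ℂ) (x w : ℂ) : ℂ := Et (β w) (Complex.I * β w + x)

/-- divided by `x` -/
noncomputable def gg (β : ℂ → ℂ) (x w : ℂ) : ℂ := dslope (fun x => ee β x w) 0 x

/-- phase of the isotropic line -/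
noncomputable def tJ (β : ℂ → ℂ) (j : Fin 2) (w : ℂ) : ℂ := Complex.I * β w + ((j : ℕ) : ℂ) / 2

section
variable {a c b₀ r : ℝ} {β J : ℂ → ℂ} (hE : EFac) (hP : PAR a c b₀ r β J)

include hE in
theorem E_shift {b : ℂ} (hb : 0 < b.re) (t : ℂ) (n : ℕ) : Et b (t + (n : ℂ) / 2) = (-1) ^ n * Et b t := by
  induction n with
  | zero => simp
  | succ n ih =>
    have h := (hE.2 b hb).1 (t + (n : ℂ) / 2)
    rw [pow_succ, mul_assoc, neg_one_mul, mul_neg, ← ih, ← h]
    congr 1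
    push_cast
    ring

include hP in
theorem β_pos {w : ℂ} (hw : ‖w‖ < r) : 0 < (β w).re := by
  linarith [(β_re hP hw).1, hP.hb₀]

include hE hP in
theorem ee_zero {w : ℂ} (hw : ‖w‖ < r) : ee β 0 w = 0 := by
  unfold ee
  have hb := β_pos hP hw
  refine ((hE.2 _ hb).2.2.2.2.1 _ ?_ ?_).2 ⟨0, by simp⟩
  · simp; linarith
  · simp; linarith

include hE hP in
theorem ee_odd {w : ℂ} (hw : ‖w‖ < r) {x : ℂ} (hx : |x.im| < b₀) : ee β (-x) w = -ee β x w := by
  unfold ee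
  have hb := β_re hP hw
  have hb0 := hP.hb₀
  have hx' := abs_lt.1 hx
  have h := (hE.2 _ (β_pos hP hw)).2.2.2.2.2.1 (Complex.I * β w + x) (by simp; linarith) (by simp; linarith)
  rw [← h]
  congr 1
  ring

include hE hP in
theorem ee_jd : DifferentiableOn ℂ (fun p : ℂ × ℂ => ee β p.1 p.2) (ball 0 b₀ ×ˢ ball 0 r) := by
  have h1 : DifferentiableOn ℂ (fun p : ℂ × ℂ => β p.2) (ball 0 b₀ ×ˢ ball 0 r) :=
    hP.dβ.comp (by fun_prop) (fun p hp => hp.2)
  have h2 : DifferentiableOn ℂ (fun p : ℂ × ℂ => (Complex.I * β p.2 + p.1, p.2)) (ball 0 b₀ ×ˢ ball 0 r) :=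
    ((h1.const_mul _).add differentiableOn_fst).prodMk differentiableOn_snd
  have : DifferentiableOn ℂ ((fun p : ℂ × ℂ => Et (β p.2) p.1) ∘ (fun p : ℂ × ℂ => (Complex.I * β p.2 + p.1, p.2))) (ball 0 b₀ ×ˢ ball 0 r) := by
    refine (F_jd hE hP).comp h2 ?_
    rintro ⟨x, w⟩ ⟨hx, hw⟩
    rw [mem_ball_zero_iff] at hx hw
    have h3 := β_re hP hw
    have h4 := abs_lt.1 (lt_of_le_of_lt (Complex.abs_im_le_norm x) hx)
    refine ⟨⟨?_, ?_⟩, hw⟩
    · simp; linarith
    · simp; linarith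
  exact this

include hE hP in
theorem gg_jd : DifferentiableOn ℂ (fun p : ℂ × ℂ => gg β p.1 p.2) (ball 0 b₀ ×ˢ ball 0 r) :=
  div_jd (f := fun x w => ee β x w) isOpen_ball (ee_jd hE hP) (fun w hw => ee_zero hE hP (by simpa using hw))

include hE hP in
theorem ee_mul {w : ℂ} (hw : ‖w‖ < r) (x : ℂ) : ee β x w = x * gg β x w :=
  mul_dslope_zero (f := fun x => ee β x w) (ee_zero hE hP hw) x

include hE hP in
theorem gg_even {w : ℂ} (hw : ‖w‖ < r) {x : ℂ} (hx : |x.im| < b₀) : gg β (-x) w = gg β x w := by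
  by_cases h : x = 0
  · rw [h, neg_zero]
  · have h1 := ee_odd hE hP hw hx
    rw [ee_mul hE hP hw, ee_mul hE hP hw] at h1
    have h2 : x * (gg β (-x) w - gg β x w) = 0 := by linear_combination -h1
    exact sub_eq_zero.1 ((mul_eq_zero.1 h2).resolve_left h)

include hE hP in
theorem gg_zero_ne : gg β 0 0 ≠ 0 := by
  unfold gg ee
  rw [dslope_same, deriv_comp_const_add (f := Et (β 0)), add_zero]
  exact (hE.2 _ (β_pos hP (w := 0) (by rw [norm_zero]; exact hP.hr))).2.2.2.2.2.2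

include hE hP in
theorem E_tJ {w : ℂ} (hw : ‖w‖ < r) (j : Fin 2) (x : ℂ) : Et (β w) (tJ β j w + x) = (-1) ^ (j : ℕ) * ee β x w := by
  unfold tJ ee
  rw [← E_shift hE (β_pos hP hw)]
  congr 1
  ring

theorem sgn_sq (j : Fin 2) : ((-1 : ℂ) ^ (j : ℕ)) * (-1) ^ (j : ℕ) = 1 := by
  rw [← mul_pow]
  simp

include hE hP in
theorem yy_tJ {w : ℂ} (hw : ‖w‖ < r) (j : Fin 2) (τ : ℂ) :
    yy β (tJ β j w + τ) w = ee β (τ + w / 2) w * ee β (τ - w / 2) w := by
  unfold yy
  rw [show tJ β j w + τ + w / 2 = tJ β j w + (τ + w / 2) by ring, show tJ β j w + τ - w / 2 = tJ β j w + (τ - w / 2) by ring,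
    E_tJ hE hP hw, E_tJ hE hP hw]
  linear_combination (ee β (τ + w / 2) w * ee β (τ - w / 2) w) * sgn_sq j

include hE hP in
theorem diff_tJ {w : ℂ} (hw : ‖w‖ < r) (j : Fin 2) (τ : ℂ) :
    Et (β w) (tJ β j w + τ + w / 2) - Et (β w) (tJ β j w + τ - w / 2) = (-1) ^ (j : ℕ) * (ee β (τ + w / 2) w - ee β (τ - w / 2) w) := by
  rw [show tJ β j w + τ + w / 2 = tJ β j w + (τ + w / 2) by ring, show tJ β j w + τ - w / 2 = tJ β j w + (τ - w / 2) by ring,
    E_tJ hE hP hw, E_tJ hE hP hw]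
  ring

include hE hP in
theorem im_bound {w τ : ℂ} (hw : ‖w‖ < r) (hτ : ‖τ‖ < b₀ / 2) : |(τ + w / 2).im| < b₀ ∧ |(τ - w / 2).im| < b₀ := by
  have h1 := half_im_le hw
  have h2 := r_lt hP
  have h3 := Complex.abs_im_le_norm τ
  have hb := hP.hb₀
  constructor
  · rw [Complex.add_im]
    exact (abs_add_le _ _).trans_lt (by linarith)
  · rw [Complex.sub_im]
    exact (abs_sub _ _).trans_lt (by linarith)

include hE hP in
theorem ee_flip {w τ : ℂ} (hw : ‖w‖ < r) (hτ : ‖τ‖ < b₀ / 2) :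
    ee β (-τ + w / 2) w = -ee β (τ - w / 2) w ∧ ee β (-τ - w / 2) w = -ee β (τ + w / 2) w := by
  obtain ⟨h1, h2⟩ := im_bound hE hP hw hτ
  constructor
  · rw [← ee_odd hE hP hw h2]
    congr 1
    ring
  · rw [← ee_odd hE hP hw h1]
    congr 1
    ring

include hE hP in
theorem yy_even {w τ : ℂ} (hw : ‖w‖ < r) (hτ : ‖τ‖ < b₀ / 2) (j : Fin 2) :
    yy β (tJ β j w + -τ) w = yy β (tJ β j w + τ) w := by
  obtain ⟨h1, h2⟩ := ee_flip hE hP hw hτ
  rw [yy_tJ hE hP hw, yy_tJ hE hP hw, h1, h2]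
  ring

include hE hP in
/-- evenness of the bounce point in `τ`, `w ≠ 0` -/
theorem ZE_even_ne {w τ : ℂ} (hw : ‖w‖ < r) (hw0 : w ≠ 0) (hτ : ‖τ‖ < b₀ / 2) (j : Fin 2) :
    ZE a c β J (tJ β j w + -τ) w = ZE a c β J (tJ β j w + τ) w := by
  have h0 := yy_even hE hP hw hτ j
  unfold yy at h0
  obtain ⟨h1, h2⟩ := ee_flip hE hP hw hτ
  unfold ZE
  rw [if_neg hw0, if_neg hw0, h0, diff_tJ hE hP hw, diff_tJ hE hP hw, h1, h2]
  congr 1
  ring

/-! ### Reality -/

include hE in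
theorem ee_imag_b {b : ℝ} (hb : 0 < b) (x : ℝ) :
    (starRingEnd ℂ) (Et b (Complex.I * b + x)) = -Et b (Complex.I * b + x) := by
  have hbre : 0 < (b:ℂ).re := by simpa using hb
  have hfac := hE.2 (b:ℂ) hbre
  have hd : DifferentiableOn ℂ (Et b) {t : ℂ | -b < t.im ∧ t.im < 3 * b} := by
    have : DifferentiableOn ℂ ((fun p : ℂ × ℂ => Et p.2 p.1) ∘ (fun t : ℂ => (t, (b:ℂ)))) {t : ℂ | -b < t.im ∧ t.im < 3 * b} := by
      refine DifferentiableOn.comp hE.1 (by fun_prop) ?_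
      intro t ht
      exact ⟨hbre, by simpa using ht.1, by simpa using ht.2⟩
    exact this
  have oS : IsOpen {t : ℂ | -b < t.im ∧ t.im < 3 * b} :=
    (isOpen_lt continuous_const Complex.continuous_im).inter (isOpen_lt Complex.continuous_im continuous_const)
  have hc : ContinuousAt (Et b) (Complex.I * b + x) :=
    (hd.differentiableAt (oS.mem_nhds ⟨by simp; linarith, by simp; linarith⟩)).continuousAt
  -- the relation below the line
  have h1 : ∀ y : ℝ, 0 < y → y < b → Et b (x + Complex.I * ((2 * b - y : ℝ) : ℂ)) =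
      -(starRingEnd ℂ) (Et b (x + Complex.I * y)) := by
    intro y hy hy'
    have e1 := hfac.2.2.2.1 (x + Complex.I * y) (by simp; linarith) (by simp; linarith)
    rw [Complex.conj_ofReal] at e1
    have ec : (starRingEnd ℂ) ((x:ℂ) + Complex.I * y) = x - Complex.I * y := by
      simp [Complex.conj_ofReal]; ring
    rw [ec] at e1
    have e2 := hfac.2.2.1 (x - Complex.I * y) (by simp; linarith) (by simp; linarith)
    rw [show (x:ℂ) - Complex.I * y + 2 * Complex.I * b = x + Complex.I * ((2 * b - y : ℝ) : ℂ) by push_cast; ring] at e2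
    set u := Et b (x - Complex.I * y) with hu
    have hu0 : u ≠ 0 := by
      intro h
      rw [h, mul_zero] at e1
      exact zero_ne_one e1
    have e3 : (Et b (x + Complex.I * ((2 * b - y : ℝ) : ℂ)) + (starRingEnd ℂ) (Et b (x + Complex.I * y))) * u = 0 := by
      linear_combination e1 + e2
    have e4 := (mul_eq_zero.1 e3).resolve_right hu0
    linear_combination e4
  have c1 : Tendsto (fun y : ℝ => Et b (x + Complex.I * ((2 * b - y : ℝ) : ℂ))) (𝓝[<] b) (𝓝 (Et b (Complex.I * b + x))) := by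
    have h2 : Tendsto (fun y : ℝ => (x:ℂ) + Complex.I * ((2 * b - y : ℝ) : ℂ)) (𝓝[<] b) (𝓝 (Complex.I * b + x)) := by
      have h3 : Continuous (fun y : ℝ => (x:ℂ) + Complex.I * ((2 * b - y : ℝ) : ℂ)) := by fun_prop
      have h4 := (h3.tendsto b).mono_left (nhdsWithin_le_nhds (s := Iio b))
      rwa [show (x:ℂ) + Complex.I * ((2 * b - b : ℝ) : ℂ) = Complex.I * b + x by push_cast; ring] at h4
    exact hc.tendsto.comp h2
  have c2 : Tendsto (fun y : ℝ => -(starRingEnd ℂ) (Et b (x + Complex.I * y))) (𝓝[<] b) (𝓝 (-(starRingEnd ℂ) (Et b (Complex.I * b + x)))) := by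
    have h2 : Tendsto (fun y : ℝ => (x:ℂ) + Complex.I * (y : ℂ)) (𝓝[<] b) (𝓝 (Complex.I * b + x)) := by
      have h3 : Continuous (fun y : ℝ => (x:ℂ) + Complex.I * (y : ℂ)) := by fun_prop
      have h4 := (h3.tendsto b).mono_left (nhdsWithin_le_nhds (s := Iio b))
      rwa [show (x:ℂ) + Complex.I * (b : ℂ) = Complex.I * b + x by ring] at h4
    exact ((Complex.continuous_conj.tendsto _).comp (hc.tendsto.comp h2)).neg
  have h5 : Et b (Complex.I * b + x) = -(starRingEnd ℂ) (Et b (Complex.I * b + x)) := by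
    refine tendsto_nhds_unique c1 (c2.congr' ?_)
    filter_upwards [Ioo_mem_nhdsLT hb] with y hy using (h1 y hy.1 hy.2).symm
  rw [h5, map_neg, Complex.conj_conj, ← h5]

include hP in
theorem β_ofReal {w : ℂ} (hw : ‖w‖ < r) (hwr : w.im = 0) : β w = ((β w).re : ℂ) := by
  have h1 : w = (w.re : ℂ) := by
    apply Complex.ext <;> simp [hwr]
  have h2 : (β w).im = 0 := by
    rw [h1]
    apply hP.βre
    rw [h1, Complex.norm_real] at hw
    exact hw
  apply Complex.ext <;> simp [h2]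

include hP in
theorem J_ofReal {w : ℂ} (hw : ‖w‖ < r) (hwr : w.im = 0) : (starRingEnd ℂ) (J w) = J w := by
  have h1 : w = (w.re : ℂ) := by
    apply Complex.ext <;> simp [hwr]
  have h2 : (J w).im = 0 := by
    rw [h1]
    apply hP.Jre
    rw [h1, Complex.norm_real] at hw
    exact hw
  exact Complex.conj_eq_iff_im.2 h2

include hE hP in
theorem ee_imag {w : ℂ} (hw : ‖w‖ < r) (hwr : w.im = 0) {x : ℂ} (hx : x.im = 0) :
    (starRingEnd ℂ) (ee β x w) = -ee β x w := by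
  unfold ee
  rw [β_ofReal hP hw hwr]
  have h1 : x = (x.re : ℂ) := by
    apply Complex.ext <;> simp [hx]
  rw [h1]
  exact ee_imag_b hE (β_pos hP hw) x.re

include hE hP in
theorem yy_real {w τ : ℂ} (hw : ‖w‖ < r) (hwr : w.im = 0) (hτ : τ.im = 0) (j : Fin 2) :
    (starRingEnd ℂ) (yy β (tJ β j w + τ) w) = yy β (tJ β j w + τ) w := by
  rw [yy_tJ hE hP hw, map_mul, ee_imag hE hP hw hwr (by simp [hτ, hwr]), ee_imag hE hP hw hwr (by simp [hτ, hwr])]
  ring

include hE hP in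
theorem DD_real {w τ : ℂ} (hw : ‖w‖ < r) (hwr : w.im = 0) (hτ : τ.im = 0) (j : Fin 2) :
    (starRingEnd ℂ) (DD a c β (tJ β j w + τ) w) = DD a c β (tJ β j w + τ) w := by
  unfold DD
  rw [map_add, map_mul, yy_real hE hP hw hwr hτ]
  simp

include hE hP in
theorem ZE_real_ne {w τ : ℂ} (hw : ‖w‖ < r) (hw0 : w ≠ 0) (hwr : w.im = 0) (hτ : τ.im = 0) (j : Fin 2) :
    (starRingEnd ℂ) (ZE a c β J (tJ β j w + τ) w) = ZE a c β J (tJ β j w + τ) w := by
  have h0 := yy_real hE hP hw hwr hτ j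
  unfold yy at h0
  unfold ZE
  rw [if_neg hw0, diff_tJ hE hP hw]
  rw [map_div₀, map_mul, map_mul, map_mul, map_add, map_mul, h0, map_sub, ee_imag hE hP hw hwr (by simp [hτ, hwr]),
    ee_imag hE hP hw hwr (by simp [hτ, hwr]), J_ofReal hP hw hwr, Complex.conj_I]
  have e1 : (starRingEnd ℂ) ((-1) ^ (j : ℕ)) = (-1) ^ (j : ℕ) := by simp
  have e2 : (starRingEnd ℂ) ((a:ℂ) + c) = a + c := by simp
  have e3 : (starRingEnd ℂ) ((a:ℂ) - c) = a - c := by simp
  rw [e1, e2, e3]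
  rw [show (-1) ^ (j : ℕ) * (-ee β (τ + w / 2) w - -ee β (τ - w / 2) w) = -((-1) ^ (j : ℕ) * (ee β (τ + w / 2) w - ee β (τ - w / 2) w)) by ring,
    show -Complex.I * J w * ((a:ℂ) + c + (a - c) * (Et (β w) (tJ β j w + τ + w / 2) * Et (β w) (tJ β j w + τ - w / 2))) =
      -(Complex.I * J w * ((a:ℂ) + c + (a - c) * (Et (β w) (tJ β j w + τ + w / 2) * Et (β w) (tJ β j w + τ - w / 2)))) by ring,
    neg_div_neg_eq]

end

end Vale.Agent.P097.H60
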