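import Vale.Agent.P097.H60.Base

/-! # P097 / H60 : the bounce point is jointly holomorphic -/

set_option linter.all false

open scoped Topology
open Filter Set Metric

namespace Vale.Agent.P097.H60

open Vale.Agent.P097 Vale.Agent.P097.LR

/-- strip for `t` -/
def VT (b₀ : ℝ) : Set ℂ := {t | -(b₀ / 2) < t.im ∧ t.im < 2 * b₀}

theorem isOpen_VT (b₀ : ℝ) : IsOpen (VT b₀) :=
  (isOpen_lt continuous_const Complex.continuous_im).inter (isOpen_lt Complex.continuous_im continuous_const)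

/-- the difference divided by `w` -/
noncomputable def N1 (β : ℂ → ℂ) (t w : ℂ) : ℂ :=
  dslope (fun x => Et (β x) (t + x / 2) - Et (β x) (t - x / 2)) 0 w

noncomputable def J1 (J : ℂ → ℂ) (w : ℂ) : ℂ := dslope J 0 w

noncomputable def yy (β : ℂ → ℂ) (t w : ℂ) : ℂ := Et (β w) (t + w / 2) * Et (β w) (t - w / 2)

noncomputable def DD (a c : ℝ) (β : ℂ → ℂ) (t w : ℂ) : ℂ := (a + c) + (a - c) * yy β t w

/-- conclusion of BQ -/
def BQc (a c b₀ : ℝ) (β J : ℂ → ℂ) (r' : ℝ) : Prop := ∀ t w : ℂ, ‖w‖ < r' → -(b₀ / 4) < t.im → t.im < 5 * b₀ / 2 →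
    (Et (β w) (t + w / 2) - Et (β w) (t - w / 2)) ^ 2 + 4 * J w ^ 2 *
      (cA a c * (Et (β w) (t + w / 2) * Et (β w) (t - w / 2)) +
        cB a c / 2 * (1 + (Et (β w) (t + w / 2) * Et (β w) (t - w / 2)) ^ 2)) = 0

section
variable {a c b₀ r : ℝ} {β J : ℂ → ℂ} (hE : EFac) (hP : PAR a c b₀ r β J)

include hP in
theorem mem_DF {t w : ℂ} (ht : t ∈ VT b₀) (hw : ‖w‖ < r) : (t + w / 2, w) ∈ DF b₀ r ∧ (t - w / 2, w) ∈ DF b₀ r := by
  have h1 := abs_lt.1 (half_im_le hw)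
  have h2 := r_lt hP
  have hb := hP.hb₀
  obtain ⟨h3, h4⟩ := ht
  refine ⟨⟨⟨?_, ?_⟩, hw⟩, ⟨⟨?_, ?_⟩, hw⟩⟩
  · simp only [Complex.add_im]; linarith
  · simp only [Complex.add_im]; linarith
  · simp only [Complex.sub_im]; linarith
  · simp only [Complex.sub_im]; linarith

include hE hP in
theorem Fp_jd : DifferentiableOn ℂ (fun p : ℂ × ℂ => Et (β p.2) (p.1 + p.2 / 2)) (VT b₀ ×ˢ ball 0 r) := by
  have : DifferentiableOn ℂ ((fun p : ℂ × ℂ => Et (β p.2) p.1) ∘ (fun p : ℂ × ℂ => (p.1 + p.2 / 2, p.2))) (VT b₀ ×ˢ ball 0 r) := by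
    refine (F_jd hE hP).comp (by fun_prop) ?_
    rintro ⟨t, w⟩ ⟨ht, hw⟩
    rw [mem_ball_zero_iff] at hw
    exact (mem_DF hP ht hw).1
  exact this

include hE hP in
theorem Fm_jd : DifferentiableOn ℂ (fun p : ℂ × ℂ => Et (β p.2) (p.1 - p.2 / 2)) (VT b₀ ×ˢ ball 0 r) := by
  have : DifferentiableOn ℂ ((fun p : ℂ × ℂ => Et (β p.2) p.1) ∘ (fun p : ℂ × ℂ => (p.1 - p.2 / 2, p.2))) (VT b₀ ×ˢ ball 0 r) := by
    refine (F_jd hE hP).comp (by fun_prop) ?_
    rintro ⟨t, w⟩ ⟨ht, hw⟩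
    rw [mem_ball_zero_iff] at hw
    exact (mem_DF hP ht hw).2
  exact this

include hE hP in
theorem N1_jd : DifferentiableOn ℂ (fun p : ℂ × ℂ => N1 β p.1 p.2) (VT b₀ ×ˢ ball 0 r) := by
  have h1 : DifferentiableOn ℂ (fun p : ℂ × ℂ => Et (β p.1) (p.2 + p.1 / 2) - Et (β p.1) (p.2 - p.1 / 2)) (ball 0 r ×ˢ VT b₀) := by
    have := ((Fp_jd hE hP).sub (Fm_jd hE hP)).comp (f := fun p : ℂ × ℂ => (p.2, p.1)) (s := ball 0 r ×ˢ VT b₀)
      (by fun_prop) (fun p hp => ⟨hp.2, hp.1⟩)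
    exact this
  have h2 := div_jd (f := fun x t => Et (β x) (t + x / 2) - Et (β x) (t - x / 2)) (isOpen_VT b₀) h1 (by
    intro t ht
    simp)
  exact h2.comp (f := fun p : ℂ × ℂ => (p.2, p.1)) (by fun_prop) (fun p hp => ⟨hp.2, hp.1⟩)

theorem N1_mul (β : ℂ → ℂ) (t w : ℂ) : Et (β w) (t + w / 2) - Et (β w) (t - w / 2) = w * N1 β t w :=
  mul_dslope_zero (f := fun x => Et (β x) (t + x / 2) - Et (β x) (t - x / 2)) (by simp) w

include hE hP in
theorem N1_zero {t : ℂ} (ht : t ∈ VT b₀) : N1 β t 0 = deriv (Et (β 0)) t := by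
  unfold N1
  rw [dslope_same]
  have h0 : (t, (0:ℂ)) ∈ DF b₀ r := by
    have := (mem_DF hP ht (w := 0) (by rw [norm_zero]; exact hP.hr)).1
    simpa using this
  have hd : DifferentiableAt ℂ (fun p : ℂ × ℂ => Et (β p.2) p.1) (t, 0) := (F_jd hE hP).differentiableAt ((isOpen_DF _ _).mem_nhds h0)
  set L := fderiv ℂ (fun p : ℂ × ℂ => Et (β p.2) p.1) (t, 0) with hL
  have hL' : HasFDerivAt (fun p : ℂ × ℂ => Et (β p.2) p.1) L (t, 0) := hd.hasFDerivAt
  have c1 : HasDerivAt (fun x : ℂ => ((t + x / 2, x) : ℂ × ℂ)) (1 / 2, 1) 0 :=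
    (((hasDerivAt_id (0:ℂ)).div_const 2).const_add t).prodMk (hasDerivAt_id 0)
  have c2 : HasDerivAt (fun x : ℂ => ((t - x / 2, x) : ℂ × ℂ)) (-(1 / 2), 1) 0 :=
    (((hasDerivAt_id (0:ℂ)).div_const 2).const_sub t).prodMk (hasDerivAt_id 0)
  have c3 : HasDerivAt (fun x : ℂ => ((x, 0) : ℂ × ℂ)) (1, 0) t := (hasDerivAt_id t).prodMk (hasDerivAt_const _ _)
  have d1 : HasDerivAt (fun x : ℂ => Et (β x) (t + x / 2)) (L (1 / 2, 1)) 0 := by
    have := HasFDerivAt.comp_hasDerivAt (x := (0:ℂ)) (f := fun x : ℂ => ((t + x / 2, x) : ℂ × ℂ)) (hl := by simpa using hL') (hf := c1)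
    exact this
  have d2 : HasDerivAt (fun x : ℂ => Et (β x) (t - x / 2)) (L (-(1 / 2), 1)) 0 := by
    have := HasFDerivAt.comp_hasDerivAt (x := (0:ℂ)) (f := fun x : ℂ => ((t - x / 2, x) : ℂ × ℂ)) (hl := by simpa using hL') (hf := c2)
    exact this
  have d3 : HasDerivAt (Et (β 0)) (L (1, 0)) t := by
    have := HasFDerivAt.comp_hasDerivAt (x := t) (f := fun x : ℂ => ((x, 0) : ℂ × ℂ)) (hl := hL') (hf := c3)
    exact this
  have d4 : HasDerivAt (fun x : ℂ => Et (β x) (t + x / 2) - Et (β x) (t - x / 2)) (L (1 / 2, 1) - L (-(1 / 2), 1)) 0 := d1.sub d2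
  rw [d4.deriv, d3.deriv, ← map_sub]
  congr 1
  simp
  norm_num

include hP in
theorem J1_diff : DifferentiableOn ℂ (J1 J) (ball 0 r) :=
  (Complex.differentiableOn_dslope (ball_mem_nhds _ hP.hr)).2 hP.dJ

include hP in
theorem J1_mul (w : ℂ) : J w = w * J1 J w := mul_dslope_zero (J0 hP) w

theorem J1_zero : J1 J 0 = deriv J 0 := dslope_same _ _

include hP in
theorem J1_ne {w : ℂ} (hw : ‖w‖ < r) : J1 J w ≠ 0 := by
  by_cases h : w = 0
  · rw [h, J1_zero]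
    exact hP.J'
  · intro h1
    apply hP.Jne w hw h
    rw [J1_mul hP, h1, mul_zero]

include hE hP in
theorem ZE_eq {t w : ℂ} (ht : t ∈ VT b₀) :
    ZE a c β J t w = N1 β t w / (Complex.I * J1 J w * DD a c β t w) := by
  unfold ZE
  by_cases h : w = 0
  · rw [if_pos h]
    subst h
    rw [N1_zero hE hP ht, J1_zero]
    unfold DD yy
    simp only [zero_div, add_zero, sub_zero]
    ring_nf
  · rw [if_neg h, N1_mul, J1_mul hP w]
    unfold DD yy
    rw [show Complex.I * (w * J1 J w) * ((a:ℂ) + c + (a - c) * (Et (β w) (t + w / 2) * Et (β w) (t - w / 2))) =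
      w * (Complex.I * J1 J w * ((a:ℂ) + c + (a - c) * (Et (β w) (t + w / 2) * Et (β w) (t - w / 2)))) by ring]
    exact mul_div_mul_left _ _ h

include hE hP in
theorem yy_jd : DifferentiableOn ℂ (fun p : ℂ × ℂ => yy β p.1 p.2) (VT b₀ ×ˢ ball 0 r) :=
  (Fp_jd hE hP).mul (Fm_jd hE hP)

include hE hP in
theorem DD_jd : DifferentiableOn ℂ (fun p : ℂ × ℂ => DD a c β p.1 p.2) (VT b₀ ×ˢ ball 0 r) := by
  unfold DD
  exact ((yy_jd hE hP).const_mul _).const_add _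

theorem isOpen_VB (b₀ r : ℝ) : IsOpen (VT b₀ ×ˢ ball (0:ℂ) r) := (isOpen_VT b₀).prod isOpen_ball

include hP in
theorem J1_jd : DifferentiableOn ℂ (fun p : ℂ × ℂ => J1 J p.2) (VT b₀ ×ˢ ball 0 r) :=
  (J1_diff hP).comp (by fun_prop) (fun p hp => hp.2)

include hE hP in
/-- the biquadratic relation divided by `w²` -/
theorem br {r' : ℝ} (hr' : 0 < r') (hr'r : r' ≤ r) (hB : BQc a c b₀ β J r') {t w : ℂ} (hw : ‖w‖ < r')
    (ht : -(b₀ / 4) < t.im) (ht' : t.im < 2 * b₀) :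
    N1 β t w ^ 2 + 4 * J1 J w ^ 2 * (cA a c * yy β t w + cB a c / 2 * (1 + yy β t w ^ 2)) = 0 := by
  have hb := hP.hb₀
  have htV : t ∈ VT b₀ := ⟨by linarith, ht'⟩
  have hne : ∀ w : ℂ, ‖w‖ < r' → w ≠ 0 →
      N1 β t w ^ 2 + 4 * J1 J w ^ 2 * (cA a c * yy β t w + cB a c / 2 * (1 + yy β t w ^ 2)) = 0 := by
    intro w hw h0
    have h1 := hB t w hw ht (by linarith)
    rw [N1_mul, J1_mul hP w] at h1
    have h2 : w ^ 2 * (N1 β t w ^ 2 + 4 * J1 J w ^ 2 * (cA a c * yy β t w + cB a c / 2 * (1 + yy β t w ^ 2))) = 0 := by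
      rw [← h1]
      unfold yy
      ring
    exact (mul_eq_zero.1 h2).resolve_left (pow_ne_zero 2 h0)
  by_cases h0 : w = 0
  · subst h0
    set q : ℂ → ℂ := fun w => N1 β t w ^ 2 + 4 * J1 J w ^ 2 * (cA a c * yy β t w + cB a c / 2 * (1 + yy β t w ^ 2)) with hq
    have hline : ∀ {f : ℂ × ℂ → ℂ}, DifferentiableOn ℂ f (VT b₀ ×ˢ ball 0 r) → ContinuousAt (fun w => f (t, w)) 0 := by
      intro f hf
      have h1 : ContinuousAt f (t, 0) := (hf.differentiableAt ((isOpen_VB b₀ r).mem_nhds ⟨htV, mem_ball_self hP.hr⟩)).continuousAt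
      exact ContinuousAt.comp (f := fun w : ℂ => (t, w)) h1 (by fun_prop)
    have c1 := hline (N1_jd hE hP)
    have c2 := hline (J1_jd hP)
    have c3 := hline (yy_jd hE hP)
    simp only at c1 c2 c3
    have cq : ContinuousAt q 0 := by
      rw [hq]
      exact (c1.pow 2).add ((continuousAt_const.mul (c2.pow 2)).mul ((continuousAt_const.mul c3).add
        (continuousAt_const.mul (continuousAt_const.add (c3.pow 2)))))
    have h3 : Tendsto q (𝓝[≠] 0) (𝓝 (q 0)) := cq.tendsto.mono_left nhdsWithin_le_nhds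
    have h4 : Tendsto q (𝓝[≠] 0) (𝓝 0) := by
      refine tendsto_const_nhds.congr' ?_
      have : ball (0:ℂ) r' ∈ 𝓝[≠] (0:ℂ) := mem_nhdsWithin_of_mem_nhds (ball_mem_nhds _ hr')
      filter_upwards [this, self_mem_nhdsWithin] with w hw hw0
      rw [mem_ball_zero_iff] at hw
      exact (hne w hw hw0).symm
    exact tendsto_nhds_unique h3 h4
  · exact hne w hw h0

include hE hP in
theorem Z2 {r' : ℝ} (hr' : 0 < r') (hr'r : r' ≤ r) (hB : BQc a c b₀ β J r') {t w : ℂ} (hw : ‖w‖ < r')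
    (ht : -(b₀ / 4) < t.im) (ht' : t.im < 2 * b₀) (hD : DD a c β t w ≠ 0) :
    ZE a c β J t w ^ 2 * DD a c β t w = (a - c) + (a + c) * yy β t w := by
  have hb := hP.hb₀
  have h1 := br hE hP hr' hr'r hB hw ht ht'
  have h2 := J1_ne hP (lt_of_lt_of_le hw hr'r)
  rw [ZE_eq hE hP (w := w) (t := t) ⟨by linarith, ht'⟩]
  have hDdef : DD a c β t w = (a + c) + (a - c) * yy β t w := rfl
  set D := DD a c β t w with hDD
  set y := yy β t w with hy
  set n := N1 β t w with hn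
  set j := J1 J w with hj
  have h3 : n ^ 2 = - (4 * j ^ 2 * (cA a c * y + cB a c / 2 * (1 + y ^ 2))) := by linear_combination h1
  have h4 : (4 : ℂ) * (cA a c * y + cB a c / 2 * (1 + y ^ 2)) = ((a - c) + (a + c) * y) * D := by
    rw [hDdef]
    unfold cA cB
    push_cast
    ring
  have h5 : (n / (Complex.I * j * D)) ^ 2 * D = n ^ 2 / (-(j ^ 2) * D) := by
    rw [div_pow, mul_pow, mul_pow, Complex.I_sq]
    field_simp
  rw [h5, h3, show -(4 * j ^ 2 * (cA a c * y + cB a c / 2 * (1 + y ^ 2))) = -(j ^ 2) * (4 * (cA a c * y + cB a c / 2 * (1 + y ^ 2))) by ring,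
    h4, ← mul_assoc, mul_div_mul_right _ _ hD, mul_div_cancel_left₀]
  exact neg_ne_zero.2 (pow_ne_zero 2 h2)

end

end Vale.Agent.P097.H60
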